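import Vale.Agent.P281.H64.TW.Spec
import Vale.Agent.P281.H64.Gen.SpecF
import Vale.Agent.P281.H713.Core

/-!
# P281, project T-M (helper740): the moduli part of an elliptic storey, statements of the blocks

`g : X → Z` elliptic, `h : Z → Y` (dimensions `q + 2`, `q + 1`, `q`), `h` of relative dimension one.
`p = dim Z`, `dim X = p + 1`.
-/

open Set Filter Metric MeasureTheory
open Vale.Agent.P281 Vale.Agent.P281.H713 Vale.Agent.P281.H713.TZ.S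

open Vale.Agent.P281.H64.Thin (IsThinSet)
open Vale.Agent.P281.H64.StatV (IsTorus)
open Vale.Agent.P281.H64.Gen (IsSmallSet IsAnalyticSet)
open scoped Manifold ContDiff Topology ENNReal

noncomputable section

namespace Vale.Agent.P281.H740.TM

section
variable {p : ℕ} {X Z : Type} [TopologicalSpace X] [ChartedSpace (Cm (p + 1)) X]
  [TopologicalSpace Z] [ChartedSpace (Cm p) Z]

/-- The very general fibre of `g` is an elliptic curve: off any countable union of thin sets there is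
a fibre with a closed holomorphic 1-form without zeros. -/
def Ell (p : ℕ) {X Z : Type} [TopologicalSpace X] [ChartedSpace (Cm (p + 1)) X]
    [TopologicalSpace Z] [ChartedSpace (Cm p) Z] (g : X → Z) : Prop :=
  ∀ H : ℕ → Set Z, (∀ k, IsThinSet (Cm p) (H k)) → ∃ z, (∀ k, z ∉ H k) ∧
    ∃ (G : Type) (_ : TopologicalSpace G) (_ : T2Space G) (_ : ChartedSpace (Cm 1) G) (i : G → X),
      H511.Surf.IsFibre (Cm (p + 1)) (Cm 1) g z i ∧ IsTorus 1 G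

/-- `H` is, near `x`, the coefficient of `Θ ∧ g^* (dz_1 ∧ ⋯ ∧ dz_p)^w` in the charts of `Z` at `g x`
and of `X` at `x`. -/
def IsCoef (p : ℕ) {X Z : Type} [TopologicalSpace X] [ChartedSpace (Cm (p + 1)) X]
    [TopologicalSpace Z] [ChartedSpace (Cm p) Z] (g : X → Z) (S : Set Z) (w : ℕ) (Θ : X → ℂ) (x : X)
    (H : X → ℂ) : Prop :=
  J.HolAt (Cm (p + 1)) H x ∧ ∀ᶠ z in 𝓝 x, g z ∉ S →
    jac (Cm p) (chartAt (Cm p) (g x)) (g z) ^ w * Θ z =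
      H z * jac (Cm (p + 1)) (chartAt (Cm (p + 1)) x) z ^ w

/-- `x` is a good point of `E` over `D`: near `x`, `E = {e = 0}` and `D = {d = 0}` are smooth,
`g^* D = k E`, `Θ ∧ g^* vol^w` has divisor `o E`, and `E → D` is submersive. -/
def GoodAt (p : ℕ) {X Z : Type} [TopologicalSpace X] [ChartedSpace (Cm (p + 1)) X]
    [TopologicalSpace Z] [ChartedSpace (Cm p) Z] (g : X → Z) (S : Set Z) (w : ℕ) (Θ : X → ℂ)
    (E : Set X) (D : Set Z) (k o : ℕ) (x : X) : Prop :=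
  x ∈ E ∧ ∃ (e : X → ℂ) (d : Z → ℂ) (u H v : X → ℂ),
    J.IsLocalEq (Cm (p + 1)) E e x ∧ J.dif (Cm (p + 1)) e x ≠ 0 ∧
    J.IsLocalEq (Cm p) D d (g x) ∧ J.dif (Cm p) d (g x) ≠ 0 ∧
    J.HolAt (Cm (p + 1)) u x ∧ u x ≠ 0 ∧ (∀ᶠ z in 𝓝 x, d (g z) = e z ^ k * u z) ∧
    IsCoef p g S w Θ x H ∧ J.HolAt (Cm (p + 1)) v x ∧ v x ≠ 0 ∧
    (∀ᶠ z in 𝓝 x, H z = e z ^ o * v z) ∧
    ∀ η : Cm p, J.dif (Cm p) d (g x) η = 0 → ∃ ξ : Cm (p + 1), J.dif (Cm (p + 1)) e x ξ = 0 ∧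
      mfderiv 𝓘(ℂ, Cm (p + 1)) 𝓘(ℂ, Cm p) g x ξ = η

/-- The orders `(Δ(E) + ord_E(Θ ∧ g^* vol^w) / w) / ord_E(g^* D)`, `E` over `D`. -/
def mset (p : ℕ) {X Z : Type} [TopologicalSpace X] [ChartedSpace (Cm (p + 1)) X]
    [TopologicalSpace Z] [ChartedSpace (Cm p) Z] (g : X → Z) (S : Set Z) (w : ℕ) (Θ : X → ℂ)
    (Δ : Set X → ℝ) (D : Set Z) : Set ℝ :=
  {r | ∃ (E : Set X) (k o : ℕ) (x : X), J.IsPrime (Cm (p + 1)) E ∧ closure (g '' E) = D ∧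
    GoodAt p g S w Θ E D k o x ∧ r = (Δ E + o / w) / k}

open Classical in
/-- The boundary `Γ = Δ_Θ` of `Z`. -/
def mbase (p : ℕ) {X Z : Type} [TopologicalSpace X] [ChartedSpace (Cm (p + 1)) X]
    [TopologicalSpace Z] [ChartedSpace (Cm p) Z] (g : X → Z) (S : Set Z) (w : ℕ) (Θ : X → ℂ)
    (Δ : Set X → ℝ) (D : Set Z) : ℝ :=
  if J.IsPrime (Cm p) D then sInf (mset p g S w Θ Δ D) else 0

end

section
variable {p : ℕ} {X Z : Type} [TopologicalSpace X] [ChartedSpace (Cm (p + 1)) X]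
  [IsManifold 𝓘(ℂ, Cm (p + 1)) ω X] [TopologicalSpace Z] [ChartedSpace (Cm p) Z]
  [IsManifold 𝓘(ℂ, Cm p) ω Z]

/-- `Θ` is a relative form of weight `w` over `Z ∖ S` (`t(g x) Θ(x)` is a section of `w K_X` for
every section `t` of `w K_Z`), bounded on the injective discs of the fibres. -/
def RF (g : X → Z) (S : Set Z) (e₀ : Cm (p + 1) ≃L[ℂ] (Cm p × ℂ)) (w : ℕ) (Θ : X → ℂ) : Prop :=
  RelForm (E := Cm (p + 1)) (E' := Cm p) (E₀ := ℂ) g S e₀ w (∅ : Set (Set X)) (fun _ => 0) Θ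

/-- Relative forms vanish on the whole fibre, or nowhere on the fibre. -/
def Dich (g : X → Z) (S : Set Z) (e₀ : Cm (p + 1) ≃L[ℂ] (Cm p × ℂ)) : Prop :=
  ∀ (w : ℕ) (Θ : X → ℂ), RF g S e₀ w Θ → ∀ x x', g x = g x' → g x ∉ S → Θ x = 0 → Θ x' = 0

/-- Over `Z ∖ S`, `g` is a family of elliptic curves, with uniformizations (the letters of
`H713/Defs`; `m = 2` is forced). -/
def HasTor (p : ℕ) {X Z : Type} [TopologicalSpace X] [ChartedSpace (Cm (p + 1)) X]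
    [TopologicalSpace Z] [ChartedSpace (Cm p) Z] (g : X → Z) (S : Set Z) : Prop :=
  ∃ (m : ℕ) (Q : (Fin m → ℝ) → (Fin m → ℝ) → ℝ) (ι : Type) (U : ι → Set Z)
    (π : ι → Z → ((Fin m → ℝ) ≃L[ℝ] ℂ)) (u : ι → Z → ℂ → X),
    IsTorusFamily (Cm (p + 1)) (Cm p) g S Q U π u

/-- Every prime divisor `D` of `Z` has a prime `E` over it with
`Δ(E) + ord_E(Θ ∧ g^* vol^w) / w ≤ ord_E(g^* D)`. -/
def LeOne (p : ℕ) {X Z : Type} [TopologicalSpace X] [ChartedSpace (Cm (p + 1)) X]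
    [TopologicalSpace Z] [ChartedSpace (Cm p) Z] (g : X → Z) (S : Set Z) (w : ℕ) (Θ : X → ℂ)
    (Δ : Set X → ℝ) (D : Set Z) : Prop :=
  ∃ (E : Set X) (k o : ℕ) (x : X), J.IsPrime (Cm (p + 1)) E ∧ closure (g '' E) = D ∧
    GoodAt p g S w Θ E D k o x ∧ Δ E + o / w ≤ k

end

/-- The standing assumptions: `g : X → Z` is a fibration of relative dimension one, a proper
submersion over `Z ∖ S`, `S` small, and `Θ ≢ 0` is a relative form of weight `w > 0`. -/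
structure Std (p : ℕ) {X Z : Type} [TopologicalSpace X] [ChartedSpace (Cm (p + 1)) X]
    [IsManifold 𝓘(ℂ, Cm (p + 1)) ω X] [TopologicalSpace Z] [ChartedSpace (Cm p) Z]
    [IsManifold 𝓘(ℂ, Cm p) ω Z] (g : X → Z) (Δ : Set X → ℝ) (S : Set Z)
    (e₀ : Cm (p + 1) ≃L[ℂ] (Cm p × ℂ)) (w : ℕ) (Θ : X → ℂ) : Prop where
  fib : H511.Surf.IsFibration (Cm (p + 1)) (Cm p) g Δ
  small : IsSmallSet (Cm p) S
  proper : H64.IsProperFibration (n := p + 1) (p := p) g S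
  pos : 0 < w
  form : RF g S e₀ w Θ
  ne : ∃ x, g x ∉ S ∧ Θ x ≠ 0

/-- **T0** (Remmert for hypersurfaces; as `H349/Gen/Push`, `H303/Gen/Push5`): a prime divisor `E` of
`X` such that `g(E)` is neither `Z` nor a prime divisor lies over a small subset of `Y` (otherwise
`g|E` has rank `≥ q` somewhere, `dim Z = q + 1`, and `g(E)` is a hypersurface, or `Z`). -/
def ExcStmt : Prop :=
  ∀ (q : ℕ) (X Z Y : Type) [TopologicalSpace X] [T2Space X] [CompactSpace X]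
    [ChartedSpace (Cm (q + 1 + 1)) X]
    [IsManifold 𝓘(ℂ, Cm (q + 1 + 1)) ω X] [TopologicalSpace Z] [T2Space Z]
    [ChartedSpace (Cm (q + 1)) Z] [IsManifold 𝓘(ℂ, Cm (q + 1)) ω Z] [ConnectedSpace Z]
    [TopologicalSpace Y] [T2Space Y] [ChartedSpace (Cm q) Y] [IsManifold 𝓘(ℂ, Cm q) ω Y]
    (g : X → Z) (h : Z → Y), ContMDiff 𝓘(ℂ, Cm (q + 1 + 1)) 𝓘(ℂ, Cm (q + 1)) ω g →
    ContMDiff 𝓘(ℂ, Cm (q + 1)) 𝓘(ℂ, Cm q) ω h → ∀ E, J.IsPrime (Cm (q + 1 + 1)) E →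
    closure (g '' E) ≠ univ → ¬ J.IsPrime (Cm (q + 1)) (closure (g '' E)) →
    IsSmallSet (Cm q) ((fun x => h (g x)) '' E)

/-- **T1**: `S` (`CritStmt`), the uniformizations (`IsFamilyOfCurves`; the elliptic case, since one
fibre over `Z ∖ S` is a torus). -/
def EllStmt : Prop :=
  ∀ (p : ℕ) (X Z : Type) [TopologicalSpace X] [ChartedSpace (Cm (p + 1)) X]
    [TopologicalSpace Z] [ChartedSpace (Cm p) Z] (g : X → Z) (Δ : Set X → ℝ),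
    H511.Surf.IsFibration (Cm (p + 1)) (Cm p) g Δ → Ell p g →
    ∃ S, IsSmallSet (Cm p) S ∧ H64.IsProperFibration (n := p + 1) (p := p) g S ∧ HasTor p g S

/-- **T2**: `Θ(u a z v) = b(v) JP^w` with `b` entire and bounded. -/
def DichStmt : Prop :=
  ∀ (p : ℕ) (X Z : Type) [TopologicalSpace X] [ChartedSpace (Cm (p + 1)) X]
    [IsManifold 𝓘(ℂ, Cm (p + 1)) ω X] [TopologicalSpace Z] [ChartedSpace (Cm p) Z]
    [IsManifold 𝓘(ℂ, Cm p) ω Z] (g : X → Z) (Δ : Set X → ℝ) (S : Set Z)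
    (e₀ : Cm (p + 1) ≃L[ℂ] (Cm p × ℂ)), H511.Surf.IsFibration (Cm (p + 1)) (Cm p) g Δ →
    IsSmallSet (Cm p) S → H64.IsProperFibration (n := p + 1) (p := p) g S → HasTor p g S →
    Dich g S e₀

/-- **T3a**: the coefficient of a relative form extends across `g⁻¹(S)` (`liftS` / `ExtStmt`). -/
def CoefStmt : Prop :=
  ∀ (p : ℕ) (X Z : Type) [TopologicalSpace X] [ChartedSpace (Cm (p + 1)) X]
    [IsManifold 𝓘(ℂ, Cm (p + 1)) ω X] [TopologicalSpace Z] [ChartedSpace (Cm p) Z]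
    [IsManifold 𝓘(ℂ, Cm p) ω Z] (g : X → Z) (Δ : Set X → ℝ) (S : Set Z)
    (e₀ : Cm (p + 1) ≃L[ℂ] (Cm p × ℂ)) (w : ℕ) (Θ : X → ℂ),
    H511.Surf.IsFibration (Cm (p + 1)) (Cm p) g Δ → IsSmallSet (Cm p) S →
    H64.IsProperFibration (n := p + 1) (p := p) g S → 0 < w → RF g S e₀ w Θ →
    ∀ x, ∃ H, IsCoef p g S w Θ x H

/-- **T3**: the orders along a prime divisor `E` over the prime divisor `D` (helper308's `TW/Mult`,
`Good`, `Bd`). The points of `E` which are not good are an analytic subset, nowhere dense in `E`. -/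
def OrdStmt : Prop :=
  ∀ (p : ℕ) (X Z : Type) [TopologicalSpace X] [ChartedSpace (Cm (p + 1)) X]
    [IsManifold 𝓘(ℂ, Cm (p + 1)) ω X] [TopologicalSpace Z] [ChartedSpace (Cm p) Z]
    [IsManifold 𝓘(ℂ, Cm p) ω Z] (g : X → Z) (Δ : Set X → ℝ) (S : Set Z)
    (e₀ : Cm (p + 1) ≃L[ℂ] (Cm p × ℂ)) (w : ℕ) (Θ : X → ℂ), Std p g Δ S e₀ w Θ →
    ∀ (E : Set X) (D : Set Z), J.IsPrime (Cm (p + 1)) E → J.IsPrime (Cm p) D →
    closure (g '' E) = D → ∃ k o : ℕ, 0 < k ∧ w * (k - 1) ≤ o ∧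
      IsAnalyticSet (Cm (p + 1)) {x | x ∈ E ∧ ¬ GoodAt p g S w Θ E D k o x} ∧
      E ⊆ closure {x | GoodAt p g S w Θ E D k o x} ∧
      ∀ k' o' x, GoodAt p g S w Θ E D k' o' x → k' = k ∧ o' = o

/-- **T4**: if the analytic set `A` contains no immersed ball of dimension `q + 1`, then the very
general fibre of `f : X → Y`, `dim Y = q`, meets `A` in a countable set (`ImgLocStmt` for `(f, ζ)`,
`ζ` a coordinate of `X`; or directly by induction as `ImgStmt`). -/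
def GenStmt : Prop :=
  ∀ (n q : ℕ) (X Y : Type) [TopologicalSpace X] [T2Space X] [CompactSpace X]
    [ChartedSpace (Cm n) X] [IsManifold 𝓘(ℂ, Cm n) ω X] [TopologicalSpace Y] [T2Space Y]
    [ChartedSpace (Cm q) Y] [IsManifold 𝓘(ℂ, Cm q) ω Y] (f : X → Y) (A : Set X),
    ContMDiff 𝓘(ℂ, Cm n) 𝓘(ℂ, Cm q) ω f → IsAnalyticSet (Cm n) A →
    (∀ φ : Cm (q + 1) → X, ¬ ∀ v ∈ ball (0 : Cm (q + 1)) 1,
      ContMDiffAt 𝓘(ℂ, Cm (q + 1)) 𝓘(ℂ, Cm n) ω φ v ∧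
      Function.Injective (mfderiv 𝓘(ℂ, Cm (q + 1)) 𝓘(ℂ, Cm n) φ v) ∧ φ v ∈ A) →
    ∃ H : ℕ → Set Y, (∀ k, IsThinSet (Cm q) (H k)) ∧ ∀ y, (∀ k, y ∉ H k) →
      (A ∩ f ⁻¹' {y}).Countable

/-- **T4b**: a nowhere dense analytic subset of a prime divisor `E` of `X`, `dim X = q + 2`, contains
no immersed ball of dimension `q + 1`. (At a general point of the ball, `e = ε^ν u` with `ε` the
equation of the ball and `u ≠ 0`, so `E` is the ball near this point, as `e` is reduced.) -/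
def BallStmt : Prop :=
  ∀ (q : ℕ) (X : Type) [TopologicalSpace X] [T2Space X] [ChartedSpace (Cm (q + 2)) X]
    [IsManifold 𝓘(ℂ, Cm (q + 2)) ω X] (E A : Set X), J.IsPrime (Cm (q + 2)) E → A ⊆ E →
    IsClosed A → E ⊆ closure (E \ A) → ∀ φ : Cm (q + 1) → X, ¬ ∀ v ∈ ball (0 : Cm (q + 1)) 1,
      ContMDiffAt 𝓘(ℂ, Cm (q + 1)) 𝓘(ℂ, Cm (q + 2)) ω φ v ∧
      Function.Injective (mfderiv 𝓘(ℂ, Cm (q + 1)) 𝓘(ℂ, Cm (q + 2)) φ v) ∧ φ v ∈ A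

/-- **T5** (forms and the `L^2` bound: helper68, helper615, helper125, helper364). -/
def L2Stmt : Prop :=
  ∀ (p : ℕ) (X Z : Type) [TopologicalSpace X] [ChartedSpace (Cm (p + 1)) X]
    [IsManifold 𝓘(ℂ, Cm (p + 1)) ω X] [TopologicalSpace Z] [ChartedSpace (Cm p) Z]
    [IsManifold 𝓘(ℂ, Cm p) ω Z] (g : X → Z) (Δ : Set X → ℝ) (S : Set Z)
    (e₀ : Cm (p + 1) ≃L[ℂ] (Cm p × ℂ)), H511.Surf.IsFibration (Cm (p + 1)) (Cm p) g Δ →
    IsSmallSet (Cm p) S → H64.IsProperFibration (n := p + 1) (p := p) g S → HasTor p g S →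
    ∃ (K : Finset ℕ) (Θ : ℕ → X → ℂ), (∀ k ∈ K, 0 < k ∧ RF g S e₀ k (Θ k)) ∧
      (∃ k ∈ K, ∃ x, g x ∉ S ∧ Θ k x ≠ 0) ∧
      ∀ D, J.IsPrime (Cm p) D → ∃ k ∈ K, LeOne p g S k (Θ k) Δ D

/-- **T6** (general combinations; helper68). `Ψ_a = ∑_(k ∈ K) a_k Θ_k^(w/k)`, `w` a common multiple of
`K`; `Θ = Ψ_a + λ Ψ_b`. Let `ℰ₀` be the (finitely many, `FinStmt`) primes `E` along which all `Θ_k`
vanish, or `Δ(E) ≠ 0`. Choose `a` such that `ord_E Ψ_a / w = min_k ord_E Θ_k / k` for `E ∈ ℰ₀`; `b` such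
that the common zero primes of `Ψ_a`, `Ψ_b` are in `ℰ₀`; `λ` such that `Θ` has the minimal order for
`E ∈ ℰ₀` and does not vanish along the finitely many `E ∉ ℰ₀` with `H_a dH_b = H_b dH_a` along `E`
(if this is identically zero, `λ = 0`). If some `E ∉ ℰ₀` is over `D`, then `Δ(E) + o/w ≤ 1/w`. -/
def ThetaStmt : Prop :=
  ∀ (p : ℕ) (X Z : Type) [TopologicalSpace X] [ChartedSpace (Cm (p + 1)) X]
    [IsManifold 𝓘(ℂ, Cm (p + 1)) ω X] [TopologicalSpace Z] [ChartedSpace (Cm p) Z]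
    [IsManifold 𝓘(ℂ, Cm p) ω Z] (g : X → Z) (Δ : Set X → ℝ) (S : Set Z)
    (e₀ : Cm (p + 1) ≃L[ℂ] (Cm p × ℂ)), H511.Surf.IsFibration (Cm (p + 1)) (Cm p) g Δ →
    IsSmallSet (Cm p) S → H64.IsProperFibration (n := p + 1) (p := p) g S →
    ∀ (K : Finset ℕ) (Θ : ℕ → X → ℂ), (∀ k ∈ K, 0 < k ∧ RF g S e₀ k (Θ k)) →
    (∀ D, J.IsPrime (Cm p) D → ∃ k ∈ K, LeOne p g S k (Θ k) Δ D) →
    (∃ k ∈ K, ∃ x, g x ∉ S ∧ Θ k x ≠ 0) →
    ∃ (w : ℕ) (Θ' : X → ℂ), Std p g Δ S e₀ w Θ' ∧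
      ∀ D, J.IsPrime (Cm p) D → LeOne p g S w Θ' Δ D

/-- **T7**: `Γ = Δ_Θ` is a rational boundary (without transversality), its coefficients are attained
(the set `mset` is finite; `Γ(D) ≠ 0` only for the `D` under the finitely many `E` with `Δ(E) ≠ 0` or
`o ≠ 0`). -/
def MBaseStmt : Prop :=
  ∀ (p : ℕ) (X Z : Type) [TopologicalSpace X] [ChartedSpace (Cm (p + 1)) X]
    [IsManifold 𝓘(ℂ, Cm (p + 1)) ω X] [TopologicalSpace Z] [ChartedSpace (Cm p) Z]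
    [IsManifold 𝓘(ℂ, Cm p) ω Z] (g : X → Z) (Δ : Set X → ℝ) (S : Set Z)
    (e₀ : Cm (p + 1) ≃L[ℂ] (Cm p × ℂ)) (w : ℕ) (Θ : X → ℂ), Std p g Δ S e₀ w Θ →
    (∀ D, J.IsPrime (Cm p) D → LeOne p g S w Θ Δ D) → ∀ Γ : Set Z → ℝ, Γ = mbase p g S w Θ Δ →
    {D | Γ D ≠ 0}.Finite ∧ (∀ D, Γ D ≠ 0 → J.IsPrime (Cm p) D) ∧
    (∀ D, ∃ r : ℚ, Γ D = r ∧ 0 ≤ r ∧ r ≤ 1) ∧
    (∀ D, J.IsPrime (Cm p) D → Γ D ∈ mset p g S w Θ Δ D ∧ ∀ r ∈ mset p g S w Θ Δ D, Γ D ≤ r)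

/-- **T8** (flag core: helper308, with `hasFormsN` of helper383):
`κ(C, K_C + Δ_Θ|C) + κ(h ∘ g | Δ) ≤ κ(X, K_X + Δ)`. -/
def FlagStmt : Prop :=
  ∀ (q : ℕ) (X Z Y : Type) [TopologicalSpace X] [ChartedSpace (Cm (q + 1 + 1)) X]
    [IsManifold 𝓘(ℂ, Cm (q + 1 + 1)) ω X] [TopologicalSpace Z] [ChartedSpace (Cm (q + 1)) Z]
    [IsManifold 𝓘(ℂ, Cm (q + 1)) ω Z] [TopologicalSpace Y] [ChartedSpace (Cm q) Y]
    (g : X → Z) (h : Z → Y) (Δ : Set X → ℝ) (S : Set Z)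
    (e₀ : Cm (q + 1 + 1) ≃L[ℂ] (Cm (q + 1) × ℂ)) (w : ℕ) (Θ : X → ℂ), Std (q + 1) g Δ S e₀ w Θ →
    H511.Surf.IsFibration (Cm (q + 1)) (Cm q) h (fun _ => 0) → ∀ Γ : Set Z → ℝ,
    {D | Γ D ≠ 0}.Finite → (∀ D, Γ D ≠ 0 → J.IsPrime (Cm (q + 1)) D) →
    (∀ D, ∃ r : ℚ, Γ D = r ∧ 0 ≤ r ∧ r ≤ 1) →
    (∀ D, J.IsPrime (Cm (q + 1)) D → ∀ r ∈ mset (q + 1) g S w Θ Δ D, Γ D ≤ r) →
    ∃ H : ℕ → Set Y, (∀ k, IsThinSet (Cm q) (H k)) ∧ ∀ y, (∀ k, y ∉ H k) →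
      ∀ (C : Type) [TopologicalSpace C] [T2Space C] [ChartedSpace (Cm 1) C] (i' : C → Z),
        H511.Surf.IsFibre (Cm (q + 1)) (Cm 1) h y i' →
        kodR (Cm (q + 1)) (Cm 1) i' Γ + kodF (q + 1 + 1) q Δ (id : X → X) (fun x => h (g x)) ≤
          kodX (Cm (q + 1 + 1)) Δ

/-- **T10** (restriction): for the very general `y`, `κ(F, K_F + Δ|F) ≤ κ(C, K_C + Δ_Θ|C)`. For `σ` on
`F`, `R = (σ j_F^m)^w / Θ^m` is constant on the smooth fibres of `F → C` (maximum principle: compact,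
connected, no poles of `σ` and no zeros of `Θ` on them), so `R = τ j_C^(mw) ∘ g`, `τ` on `C`. Let `P` be
the zeros of the coefficient of `Θ ∧ g^* vol^w` and the support of `Δ`: finitely many primes, all over
primes of `Z` or (T0) over a small subset of `Y` (none is over `Z`, by `Dich`). At `c ∈ C` not in the images of these, `R` is holomorphic near the fibre over `c`. At
`c ∈ C ∩ D`: `C ∩ D` is discrete (`D` contains no ball of dimension `q + 1`: T4); for the `E` over `D`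
which attains `Γ(D)`, `E ∩ F` is uncountable near a point over `c`, and the points which are not good
or lie on other components of `P` are countable (T3, T4, T4b); at such a point `x ∈ E ∩ F` over `c`,
`|τ d^(mwΓ(D))|` pulled back by the open map `g|F` is bounded. -/
def RestrStmt : Prop :=
  ∀ (q : ℕ) (X Z Y : Type) [TopologicalSpace X] [ChartedSpace (Cm (q + 1 + 1)) X]
    [IsManifold 𝓘(ℂ, Cm (q + 1 + 1)) ω X] [TopologicalSpace Z] [ChartedSpace (Cm (q + 1)) Z]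
    [IsManifold 𝓘(ℂ, Cm (q + 1)) ω Z] [TopologicalSpace Y] [ChartedSpace (Cm q) Y]
    (g : X → Z) (h : Z → Y) (Δ : Set X → ℝ) (S : Set Z)
    (e₀ : Cm (q + 1 + 1) ≃L[ℂ] (Cm (q + 1) × ℂ)) (w : ℕ) (Θ : X → ℂ), Std (q + 1) g Δ S e₀ w Θ →
    Dich g S e₀ → (∀ D, Δ D ≠ 0 → closure (g '' D) ≠ univ) →
    H511.Surf.IsFibration (Cm (q + 1)) (Cm q) h (fun _ => 0) → ∀ Γ : Set Z → ℝ, {D | Γ D ≠ 0}.Finite →
    (∀ D, Γ D ≠ 0 → J.IsPrime (Cm (q + 1)) D) → (∀ D, ∃ r : ℚ, Γ D = r ∧ 0 ≤ r ∧ r ≤ 1) →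
    (∀ D, J.IsPrime (Cm (q + 1)) D → Γ D ∈ mset (q + 1) g S w Θ Δ D) →
    ∃ H : ℕ → Set Y, (∀ k, IsThinSet (Cm q) (H k)) ∧ ∀ y, (∀ k, y ∉ H k) →
      ∀ (F : Type) [TopologicalSpace F] [T2Space F] [ChartedSpace (Cm 2) F] (i : F → X)
        (C : Type) [TopologicalSpace C] [T2Space C] [ChartedSpace (Cm 1) C] (i' : C → Z),
        H511.Surf.IsFibre (Cm (q + 1 + 1)) (Cm 2) (fun x => h (g x)) y i → Function.Injective i →
        H511.Surf.IsFibre (Cm (q + 1)) (Cm 1) h y i' → Function.Injective i' →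
        kodR (Cm (q + 1 + 1)) (Cm 2) i Δ ≤ kodR (Cm (q + 1)) (Cm 1) i' Γ

/-- **T-M**, the goal. -/
def TMStmt : Prop :=
  ∀ (q : ℕ) (X Z Y : Type) [TopologicalSpace X] [ChartedSpace (Cm (q + 1 + 1)) X]
    [TopologicalSpace Z] [ChartedSpace (Cm (q + 1)) Z] [TopologicalSpace Y] [ChartedSpace (Cm q) Y]
    (g : X → Z) (h : Z → Y) (Δ : Set X → ℝ), H511.Surf.IsFibration (Cm (q + 1 + 1)) (Cm (q + 1)) g Δ →
    H511.Surf.IsFibration (Cm (q + 1)) (Cm q) h (fun _ => 0) →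
    Ell (q + 1) g → (∀ D, Δ D ≠ 0 → closure (g '' D) ≠ univ) →
    ∃ H : ℕ → Set Y, (∀ k, IsThinSet (Cm q) (H k)) ∧ ∀ y, (∀ k, y ∉ H k) →
      ∀ (F : Type) [TopologicalSpace F] [T2Space F] [ChartedSpace (Cm 2) F] (i : F → X),
        H511.Surf.IsFibre (Cm (q + 1 + 1)) (Cm 2) (fun x => h (g x)) y i → Function.Injective i →
        kodR (Cm (q + 1 + 1)) (Cm 2) i Δ +
            kodF (q + 1 + 1) q Δ (id : X → X) (fun x => h (g x)) ≤ kodX (Cm (q + 1 + 1)) Δ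

end Vale.Agent.P281.H740.TM
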