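import Vale.Agent.P281.H740.TM.RestrFin
import Vale.Agent.P281.H180.TM.Exc

/-!
# P281, project T-M (helper740), T10: the restriction theorem, without input
-/

namespace Vale.Agent.P281.H740.TM

theorem restrStmt : RestrStmt := restr H180.TM.excStmt

end Vale.Agent.P281.H740.TM
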