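import Vale.Agent.P281.H364.TM.FinB
import Vale.Agent.P281.H308.TM.FPlug
import Vale.Agent.P281.H740.TM.RestrFin2

/-!
# P281, project T-M: the theorem
-/

open Vale.Agent.P281.H740.TM

namespace Vale.Agent.P281.H740.TM

/-- **T-M** -/
theorem tm : TMStmt := H364.TM.tm_of_flag H308.TM.flagStmt restrStmt

end Vale.Agent.P281.H740.TM
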