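import Vale.Agent.P281.H740.TM.SpecR

/-!
# P281, project T-M (helper740): two more sub-blocks of T10 (`RestrStmt`)
-/

open Set Filter Metric MeasureTheory
open Vale.Agent.P281 Vale.Agent.P281.H713 Vale.Agent.P281.H713.TZ.S
open Vale.Agent.P281.H64.Thin (IsThinSet)
open Vale.Agent.P281.H64.Gen (IsSmallSet IsAnalyticSet)
open scoped Manifold ContDiff Topology

noncomputable section

namespace Vale.Agent.P281.H740.TM

/-- **R7**: a hypersurface of a compact manifold is the union of finitely many prime divisors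
(`H511.Gen.exists_smooth`, `IrrStmt`, `FinStmt`). -/
def ZerStmt : Prop :=
  ∀ (n : ℕ) (X : Type) [TopologicalSpace X] [T2Space X] [CompactSpace X] [ChartedSpace (Cm n) X]
    [IsManifold 𝓘(ℂ, Cm n) ω X] (A : Set X), (∀ x, ∃ g : X → ℂ, J.HolAt (Cm n) g x ∧
      (¬ ∀ᶠ z in 𝓝 x, g z = 0) ∧ ∀ᶠ z in 𝓝 x, z ∈ A ↔ g z = 0) →
    {E : Set X | J.IsPrime (Cm n) E ∧ E ⊆ A}.Finite ∧ ∀ x ∈ A, ∃ E, J.IsPrime (Cm n) E ∧ E ⊆ A ∧
      x ∈ E

/-- **R8** (the form extended over `S`, as a function on `X`, from `CoefStmt`; `Th x = H_x(x)`). The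
complement of `g⁻¹(S)` is dense; at `x` the jacobian of the chart at `x` is `1`; identity theorem. -/
def ThStmt : Prop :=
  ∀ (p : ℕ) (X Z : Type) [TopologicalSpace X] [ChartedSpace (Cm (p + 1)) X]
    [IsManifold 𝓘(ℂ, Cm (p + 1)) ω X] [TopologicalSpace Z] [ChartedSpace (Cm p) Z]
    [IsManifold 𝓘(ℂ, Cm p) ω Z] (g : X → Z) (Δ : Set X → ℝ) (S : Set Z)
    (e₀ : Cm (p + 1) ≃L[ℂ] (Cm p × ℂ)) (w : ℕ) (Θ : X → ℂ), Std p g Δ S e₀ w Θ →
    (∀ x, ∃ H, IsCoef p g S w Θ x H) →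
    ∃ Th : X → ℂ, (∀ x, g x ∉ S → Th x = Θ x) ∧
      (∀ x H, IsCoef p g S w Θ x H → ∀ᶠ z in 𝓝 x,
        jac (Cm p) (chartAt (Cm p) (g x)) (g z) ^ w * Th z =
          H z * jac (Cm (p + 1)) (chartAt (Cm (p + 1)) x) z ^ w) ∧
      ∀ x H, IsCoef p g S w Θ x H → ¬ ∀ᶠ z in 𝓝 x, H z = 0

end Vale.Agent.P281.H740.TM
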