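import Vale.Agent.P281.H740.TM.Spec
import Vale.Agent.P281.H64.Z3.Defs

/-!
# P281, project T-M (helper740): T-M in the letters of `H64/Z3`
-/

open Set
open Vale.Agent.P281 Vale.Agent.P281.H713.TZ.S
open scoped Manifold ContDiff Topology

noncomputable section

namespace Vale.Agent.P281.H740.TM

open Vale.Agent.P281.H64.Z3 in
/-- The content of `H64.Z3.TMLe`. -/
theorem le_of (tm : TMStmt) (p : ℕ) (X Y : Type) [TopologicalSpace X]
    [ChartedSpace (Cm (p + 2)) X] [TopologicalSpace Y] [ChartedSpace (Cm p) Y] (f : X → Y)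
    (Δ : Set X → ℝ) (_ : Fibn (p + 2) p f Δ) (he : EllFib (p + 2) p 2 f Δ) :
    ∃ H : ℕ → Set Y, Thins p H ∧ ∀ y, (∀ k, y ∉ H k) →
      ∀ (F : Type) [TopologicalSpace F] [T2Space F] [ChartedSpace (Cm 2) F] (i : F → X),
        Fbr (p + 2) 2 f y i → Function.Injective i →
        kR (p + 2) 2 i Δ + kY (p + 2) p f Δ ≤ kX (p + 2) Δ := by
  obtain ⟨-, Z, _, _, g, h, hg, hh, hfg, hΔ, hG⟩ := he
  obtain rfl : f = fun x => h (g x) := funext hfg
  refine tm p X Z Y g h Δ hg hh (fun H hH => ?_) hΔ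
  obtain ⟨z, hz, G, _, _, _, i, η, hi, hη, hv⟩ := hG H hH
  exact ⟨z, hz, G, _, inferInstance, _, i, hi, fun _ => η, fun _ => hη, fun x v h0 => hv x v (h0 0)⟩

end Vale.Agent.P281.H740.TM
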