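import Vale.Agent.P281.H740.TM.Restr2

/-!
# P281, project T-M (helper740), T10: the restriction theorem from its sub-blocks
-/

open Set Filter Metric
open Vale.Agent.P281 Vale.Agent.P281.H713 Vale.Agent.P281.H713.TZ.S
open Vale.Agent.P281.H740 (eqF)
open Vale.Agent.P281.H64.Thin (IsThinSet)
open scoped Manifold ContDiff Topology

set_option linter.unusedSectionVars false

noncomputable section

namespace Vale.Agent.P281.H740.TM

theorem den_of {Z : Type} {Γ : Set Z → ℝ} (hf : {D | Γ D ≠ 0}.Finite)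
    (hq : ∀ D, ∃ r : ℚ, Γ D = r ∧ 0 ≤ r ∧ r ≤ 1) :
    ∃ a : ℕ, 0 < a ∧ ∀ D, ∃ c : ℕ, (a : ℝ) * Γ D = c := by
  choose r hr using hq
  refine ⟨∏ D ∈ hf.toFinset, (r D).den, Finset.prod_pos fun D _ => (r D).den_pos, fun D => ?_⟩
  by_cases hD : Γ D = 0
  · exact ⟨0, by rw [hD, mul_zero, Nat.cast_zero]⟩
  · have hmem : D ∈ hf.toFinset := hf.mem_toFinset.2 hD
    refine ⟨(∏ D' ∈ hf.toFinset.erase D, (r D').den) * (r D).num.toNat, ?_⟩
    have h1 : ((r D).num.toNat : ℤ) = (r D).num := Int.toNat_of_nonneg (Rat.num_nonneg.2 (hr D).2.1)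
    have h2 : (((r D).num.toNat : ℕ) : ℝ) = ((r D).num : ℝ) := by exact_mod_cast h1
    have h3 : ((r D).den : ℝ) * Γ D = ((r D).num : ℝ) := by
      rw [(hr D).1]
      have h4 : ((r D).den : ℚ) * r D = (r D).num := by
        rw [mul_comm]; exact Rat.mul_den_eq_num (r D)
      exact_mod_cast h4
    rw [← Finset.mul_prod_erase _ _ hmem]
    push_cast
    rw [h2, ← h3]
    ring

theorem GoodAt.pos {p : ℕ} {X Z : Type} [TopologicalSpace X] [ChartedSpace (Cm (p + 1)) X]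
    [TopologicalSpace Z] [ChartedSpace (Cm p) Z] {g : X → Z} {S : Set Z} {w : ℕ} {Θ : X → ℂ}
    {E : Set X} {D : Set Z} {k o : ℕ} {x : X} (h : GoodAt p g S w Θ E D k o x)
    (hED : closure (g '' E) = D) : 0 < k := by
  obtain ⟨hx, e, d, u, H, v, he, -, hd, -, -, hu, hev, -⟩ := h
  rcases Nat.eq_zero_or_pos k with h0 | h0
  · exfalso
    have h1 := hev.self_of_nhds
    rw [h0, pow_zero, one_mul] at h1
    obtain ⟨V, hV, hxV, -, h3, -⟩ := hd
    have h4 : g x ∈ D := by rw [← hED]; exact subset_closure (mem_image_of_mem g hx)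
    exact hu (h1.symm.trans ((h3 _ hxV).1 h4))
  · exact h0

/-- **T10**: the restriction theorem. -/
theorem restr_of (sit : SitStmt) (const : ConstStmt) (desc : DescStmt) (pos : PosStmt)
    (zer : ZerStmt) (th : ThStmt) (kod : KodStmt) (sel : SelStmt) (loc : LocStmt)
    (frame : FrameStmt) (coef : CoefStmt) : RestrStmt := by
  classical
  intro q X Z Y _ _ _ _ _ _ _ _ g h Δ S e₀ w Θ hStd hDich hΔv hh Γ hΓf hΓp hΓq hΓm
  have hC := coef (q + 1) X Z g Δ S e₀ w Θ hStd.fib hStd.small hStd.proper hStd.pos hStd.form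
  obtain ⟨Th, hTh1, hTh2, hTh3⟩ := th (q + 1) X Z g Δ S e₀ w Θ hStd hC
  obtain ⟨_, _⟩ := hStd.fib.hausdorff
  obtain ⟨-, _⟩ := hh.hausdorff
  have := hStd.fib.compact
  have := hStd.fib.connected
  have := hh.manifold.2
  have hg := hStd.fib.hol
  have hsnc := hStd.fib.snc
  -- the zeros of the form
  set A : Set X := {x | Th x = 0} with hAdef
  have hA : ∀ x, ∃ H : X → ℂ, J.HolAt (Cm (q + 1 + 1)) H x ∧ (¬ ∀ᶠ z in 𝓝 x, H z = 0) ∧
      ∀ᶠ z in 𝓝 x, z ∈ A ↔ H z = 0 := by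
    intro x
    obtain ⟨H, hH⟩ := hC x
    refine ⟨H, hH.1, hTh3 x H hH, ?_⟩
    filter_upwards [hTh2 x H hH,
      (chartAt (Cm (q + 1 + 1)) x).open_source.mem_nhds (mem_chart_source _ x),
      hg.continuous.continuousAt.eventually
        ((chartAt (Cm (q + 1)) (g x)).open_source.mem_nhds (mem_chart_source _ (g x)))]
      with z a1 a2 a3
    have h1 : jac (Cm (q + 1 + 1)) (chartAt (Cm (q + 1 + 1)) x) z ^ w ≠ 0 :=
      pow_ne_zero _ (jac_chart_ne_zero a2)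
    have h2 : jac (Cm (q + 1)) (chartAt (Cm (q + 1)) (g x)) (g z) ^ w ≠ 0 :=
      pow_ne_zero _ (jac_chart_ne_zero a3)
    constructor
    · intro h3
      have h4 : Th z = 0 := h3
      rw [h4, mul_zero] at a1
      exact (mul_eq_zero.1 a1.symm).resolve_right h1
    · intro h3
      rw [h3, zero_mul] at a1
      exact (mul_eq_zero.1 a1).resolve_left h2
  obtain ⟨hfin, hmem⟩ := zer (q + 1 + 1) X A hA
  set Q₀ : Set (Set X) := {E | J.IsPrime (Cm (q + 1 + 1)) E ∧ (Δ E ≠ 0 ∨ E ⊆ A)} with hQ₀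
  have hQ₀f : Q₀.Finite := by
    refine (hsnc.1.union hfin).subset ?_
    rintro E ⟨h1, h2 | h2⟩
    · exact Or.inl h2
    · exact Or.inr ⟨h1, h2⟩
  have hor : ∀ E ∈ Q₀, closure (g '' E) ≠ univ := by
    rintro E ⟨h1, h2 | h2⟩ h3
    · exact hΔv E h2 h3
    · have h4 : IsClosed (g '' E) := (h1.1.isCompact.image hg.continuous).isClosed
      rw [h4.closure_eq] at h3
      obtain ⟨x₀, hx₀S, hx₀⟩ := hStd.ne
      obtain ⟨x, hxE, hx⟩ : g x₀ ∈ g '' E := by rw [h3]; trivial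
      have h5 : Th x = 0 := h2 hxE
      have h6 : g x ∉ S := by rw [hx]; exact hx₀S
      rw [hTh1 x h6] at h5
      exact hx₀ (hDich w Θ hStd.form x x₀ hx h6 h5)
  -- the primes which attain the coefficients
  have hΓm' : ∀ D, ∃ (E : Set X) (k o : ℕ), J.IsPrime (Cm (q + 1)) D →
      J.IsPrime (Cm (q + 1 + 1)) E ∧ closure (g '' E) = D ∧
      (∃ x, GoodAt (q + 1) g S w Θ E D k o x) ∧ Γ D = (Δ E + o / w) / k := by
    intro D
    by_cases hD : J.IsPrime (Cm (q + 1)) D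
    · obtain ⟨E, k, o, x, h1, h2, h3, h4⟩ := hΓm D hD
      exact ⟨E, k, o, fun _ => ⟨h1, h2, ⟨x, h3⟩, h4⟩⟩
    · exact ⟨∅, 0, 0, fun h => absurd h hD⟩
  choose ε kk oo hε using hΓm'
  set D₁ : Set (Set Z) := {D | J.IsPrime (Cm (q + 1)) D ∧ ∃ E ∈ Q₀, closure (g '' E) = D} with hD₁
  have hD₁f : D₁.Finite := by
    refine (hQ₀f.image fun E => closure (g '' E)).subset ?_
    rintro D ⟨-, E, hE, rfl⟩
    exact mem_image_of_mem _ hE
  set 𝒬 : Set (Set X) := Q₀ ∪ ε '' D₁ with h𝒬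
  set 𝒟 : Set (Set Z) := D₁ ∪ {D | Γ D ≠ 0} with h𝒟
  have h𝒬f : 𝒬.Finite := hQ₀f.union (hD₁f.image _)
  have h𝒟f : 𝒟.Finite := hD₁f.union hΓf
  have h𝒬p : ∀ E ∈ 𝒬, J.IsPrime (Cm (q + 1 + 1)) E := by
    rintro E (hE | ⟨D, hD, rfl⟩)
    · exact hE.1
    · exact (hε D hD.1).1
  have h𝒟p : ∀ D ∈ 𝒟, J.IsPrime (Cm (q + 1)) D := by
    rintro D (hD | hD)
    · exact hD.1
    · exact hΓp D hD
  obtain ⟨H₁, hH₁, hpos⟩ := pos q X Z Y g h Δ S e₀ w Θ hStd hh 𝒬 𝒟 h𝒬f h𝒟f h𝒬p h𝒟p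
  obtain ⟨H₂, hH₂, hsit⟩ := sit q X Z Y g h Δ hStd.fib hh
  refine ⟨fun k => Sum.elim H₁ H₂ (Equiv.natSumNatEquivNat.symm k), fun k => ?_, fun y hy => ?_⟩
  · show IsThinSet (Cm q) (Sum.elim H₁ H₂ (Equiv.natSumNatEquivNat.symm k))
    rcases Equiv.natSumNatEquivNat.symm k with a | b
    exacts [hH₁ a, hH₂ b]
  have hy₁ : ∀ k, y ∉ H₁ k := fun k => by
    have h1 : y ∉ Sum.elim H₁ H₂ (Equiv.natSumNatEquivNat.symm
      (Equiv.natSumNatEquivNat (Sum.inl k))) := hy _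
    rwa [Equiv.symm_apply_apply] at h1
  have hy₂ : ∀ k, y ∉ H₂ k := fun k => by
    have h1 : y ∉ Sum.elim H₁ H₂ (Equiv.natSumNatEquivNat.symm
      (Equiv.natSumNatEquivNat (Sum.inr k))) := hy _
    rwa [Equiv.symm_apply_apply] at h1
  obtain ⟨P1, P2, P3, P4⟩ := hpos y hy₁
  intro F _ _ _ i C _ _ _ i' hF hFi hC' hCi
  obtain ⟨γ, hS⟩ := hsit y hy₂ F i C i' hF hFi hC' hCi
  have := hF.compact
  have := hF.connected
  have := hF.manifold
  have := hC'.manifold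
  obtain ⟨sel1, sel2⟩ := sel q X Z Y F C g h y i i' γ hg hS
  obtain ⟨a, ha, haΓ⟩ := den_of hΓf hΓq
  let eF : Cm (q + 1 + 1) ≃L[ℂ] (Cm q × Cm 2) := ContinuousLinearEquiv.ofFinrankEq (by simp)
  let eC : Cm (q + 1) ≃L[ℂ] (Cm q × Cm 1) := ContinuousLinearEquiv.ofFinrankEq (by simp)
  have hγ := hS.hol
  choose tc htc using fun c => (hS.conn c).nonempty
  have htc' : ∀ c, γ (tc c) = c := fun c => htc c
  have hsur : Function.Surjective γ := fun c => ⟨tc c, htc' c⟩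
  set Bd : Set C := {c | ∃ D ∈ 𝒟, i' c ∈ D} with hBd
  have hBdc : IsClosed Bd := by
    have h1 : Bd = ⋃ D ∈ 𝒟, i' ⁻¹' D := by
      ext c
      simp [hBd]
    rw [h1]
    exact h𝒟f.isClosed_biUnion fun D hD => (h𝒟p D hD).1.preimage hS.fC.hol.continuous
  have hBdi : ∀ c₀, ∀ᶠ c in 𝓝 c₀, c ≠ c₀ → c ∉ Bd := by
    intro c₀
    have h1 : ∀ᶠ c in 𝓝 c₀, ∀ D ∈ 𝒟, c ≠ c₀ → i' c ∉ D :=
      (eventually_all_finite h𝒟f).2 fun D hD => sel1 D (h𝒟p D hD) (P1 D hD) c₀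
    filter_upwards [h1] with c hc hne
    rintro ⟨D, hD, h2⟩
    exact hc D hD hne h2
  have avoid : ∀ t, γ t ∉ Bd → ∀ E ∈ Q₀, i t ∉ E := by
    intro t ht E hE hit
    by_cases hD : J.IsPrime (Cm (q + 1)) (closure (g '' E))
    · exact ht ⟨closure (g '' E), Or.inl ⟨hD, E, hE, rfl⟩, by
        rw [hS.comm]; exact subset_closure (mem_image_of_mem g hit)⟩
    · exact P2 E (Or.inl hE) (hor E hE) hD (i t) hit (hS.fF.fibre t)
  have hBdd : Dense (γ ⁻¹' Bd)ᶜ := by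
    intro t
    rw [mem_closure_iff_frequently]
    exact ((mem_closure_iff_frequently.1 (dense_ne hγ hsur (γ t) t)).and_eventually
      (hγ.continuous.continuousAt.eventually (hBdi (γ t)))).mono fun t' ht' => ht'.2 ht'.1
  have hjF : ∀ t, jf eF (fun x => h (g x)) i t ≠ 0 := by
    intro t
    obtain ⟨j, -, hj0, hje⟩ := frame (q + 1 + 1) q 2 X Y F eF (fun x => h (g x)) i y
      (hh.hol.comp hg) hS.fF.hol hS.fF.fibre (fun t => hS.sub _ (hS.fF.fibre t))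
      hS.fF.immersion t
    have h1 := hje.self_of_nhds
    rw [jac_self, jac_self, mul_one, mul_one] at h1
    rw [h1]
    exact hj0
  have hjC : ∀ c, jf eC h i' c ≠ 0 := by
    intro c
    obtain ⟨j, -, hj0, hje⟩ := frame (q + 1) q 1 Z Y C eC h i' y
      hh.hol hS.fC.hol hS.fC.fibre (fun c => hS.sub' _ (hS.fC.fibre c)) hS.fC.immersion c
    have h1 := hje.self_of_nhds
    rw [jac_self, jac_self, mul_one, mul_one] at h1
    rw [h1]
    exact hj0
  have hThne : ∀ t, (∀ E ∈ Q₀, i t ∉ E) → Th (i t) ≠ 0 := by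
    intro t ht h0
    obtain ⟨E, hE, hEA, hiE⟩ := hmem (i t) h0
    exact ht E ⟨hE, Or.inr hEA⟩ hiE
  refine kod (q + 1 + 1) (q + 1) X Z F C i i' γ Δ Γ (w * a) Bd hS.fF.hol hS.fC.hol hγ hsnc.1
    hsnc.2.1 hΓf hΓp (Nat.mul_pos hStd.pos ha) hBdc hBdd
    (fun D hD c hc hcD => hc ⟨D, Or.inr hD, hcD⟩) ?_
  intro m k hm hk
  choose cΓ hcΓ using haΓ
  have hk' : ∀ D, ((m * w * cΓ D : ℕ) : ℝ) = ((m * (w * a) : ℕ) : ℝ) * Γ D := by
    intro D
    push_cast
    rw [← hcΓ D]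
    ring
  refine ⟨fun D => m * w * cΓ D, fun t => Th (i t) ^ (m * a) *
    jf eC h i' (γ t) ^ (m * (w * a)) / jf eF (fun x => h (g x)) i t ^ (m * (w * a)), hk',
    fun t ht => div_ne_zero (mul_ne_zero (pow_ne_zero _ (hThne t (avoid t ht)))
      (pow_ne_zero _ (hjC _))) (pow_ne_zero _ (hjF t)), fun s hs => ?_⟩
  obtain ⟨locA, locB⟩ := loc q X Z Y F g h y i S w a m Θ Th Δ k s eF hg hh.hol hS.fF.hol
    hS.fF.fibre hS.fF.immersion (fun t => hS.sub _ (hS.fF.fibre t)) hTh2 hsnc.1 hsnc.2.1 hk hs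
  set SF := Sg eF (fun x => h (g x)) i w a m Th s with hSF
  have hreg : ∀ t₀, (∀ E ∈ Q₀, i t₀ ∉ E) → ∃ κ : F → ℂ, J.HolAt (Cm 2) κ t₀ ∧ ∀ᶠ t in 𝓝 t₀,
      SF t = κ t * jac (Cm (q + 1)) (chartAt (Cm (q + 1)) (g (i t₀))) (g (i t)) ^
        (m * (w * a)) := by
    intro t₀ ht₀
    obtain ⟨H, hH⟩ := hC (i t₀)
    refine locA t₀ H hH ?_ fun D hD => ht₀ D ⟨hsnc.2.1 D hD, Or.inl hD⟩
    have h1 := (hTh2 (i t₀) H hH).self_of_nhds
    rw [jac_self, jac_self, one_pow, one_mul, mul_one] at h1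
    rw [← h1]
    exact hThne t₀ ht₀
  have hconst : ∀ t t', γ t = γ t' → γ t ∉ Bd → SF t = SF t' := by
    refine const F C γ Bdᶜ SF hγ hS.conn hBdc.isOpen_compl ?_
    intro c₀ hc₀
    refine ⟨fun c => jac (Cm (q + 1)) (chartAt (Cm (q + 1)) (i' c₀)) (i' c) ^ (m * (w * a)),
      ?_, fun t₀ ht₀ => ?_⟩
    · filter_upwards [hS.fC.hol.continuous.continuousAt.eventually
        ((chartAt (Cm (q + 1)) (i' c₀)).open_source.mem_nhds (mem_chart_source _ (i' c₀)))]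
        with c hc
      exact pow_ne_zero _ (jac_chart_ne_zero hc)
    · obtain ⟨κ, h1, h2⟩ := hreg t₀ (avoid t₀ (by rw [ht₀]; exact hc₀))
      have h3 : g (i t₀) = i' c₀ := by rw [← ht₀, hS.comm]
      rw [h3] at h2
      refine ⟨κ, h1, ?_⟩
      filter_upwards [h2] with t b
      rw [b, hS.comm]
  -- local sections
  have LD : ∀ c₀ : C, ∃ (d : Set Z → Z → ℂ) (a' : C → ℂ),
      (∀ D ∈ h𝒟f.toFinset, J.IsLocalEq (Cm (q + 1)) D (d D) (i' c₀)) ∧ J.HolAt (Cm 1) a' c₀ ∧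
      ∀ᶠ c in 𝓝 c₀, c ∉ Bd → SF (tc c) / jf eC h i' c ^ (m * (w * a)) *
        ∏ D ∈ h𝒟f.toFinset, d D (i' c) ^ (m * w * cΓ D) =
          a' c * jac (Cm 1) (chartAt (Cm 1) c₀) c ^ (m * (w * a)) := by
    intro c₀
    have hd : ∀ D, ∃ e : Z → ℂ, D ∈ 𝒟 → J.IsLocalEq (Cm (q + 1)) D e (i' c₀) := by
      intro D
      by_cases hD : D ∈ 𝒟
      · obtain ⟨e, he⟩ := (h𝒟p D hD).2.1 (i' c₀)
        exact ⟨e, fun _ => he⟩
      · exact ⟨0, fun h => absurd h hD⟩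
    choose d hd using hd
    have hd' : ∀ D ∈ h𝒟f.toFinset, J.IsLocalEq (Cm (q + 1)) D (d D) (i' c₀) := fun D hD =>
      hd D (h𝒟f.mem_toFinset.1 hD)
    have hdc : ∀ (t₀ : F), γ t₀ = c₀ → ∀ T : Finset (Set Z), T ⊆ h𝒟f.toFinset →
        ContinuousAt (fun t => ∏ D ∈ T, d D (g (i t)) ^ (m * w * cΓ D)) t₀ := by
      intro t₀ ht₀ T hT
      have h3 : g (i t₀) = i' c₀ := by rw [← ht₀, hS.comm]
      refine tendsto_finsetProd _ fun D hD => ?_
      obtain ⟨V, -, hx, h1, -, -⟩ := hd' D (hT hD)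
      have h4 : ContinuousAt (d D) (g (i t₀)) := by rw [h3]; exact (h1 _ hx).continuousAt
      exact (ContinuousAt.comp (g := d D) (f := fun t => g (i t)) h4
        (hg.continuous.comp hS.fF.hol.continuous).continuousAt).pow _
    have hbd : ∃ (t₀ : F) (B : ℝ), γ t₀ = c₀ ∧ ∀ᶠ t in 𝓝 t₀, γ t ≠ c₀ →
        ‖SF t * ∏ D ∈ h𝒟f.toFinset, d D (g (i t)) ^ (m * w * cΓ D)‖ ≤
          B * ‖jac (Cm (q + 1)) (chartAt (Cm (q + 1)) (i' c₀)) (g (i t)) ^ (m * (w * a))‖ := by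
      by_cases hcase : ∃ t₀, γ t₀ = c₀ ∧ ∀ E ∈ Q₀, i t₀ ∉ E
      · obtain ⟨t₀, ht₀, h1⟩ := hcase
        obtain ⟨κ, hκ, hκe⟩ := hreg t₀ h1
        have h3 : g (i t₀) = i' c₀ := by rw [← ht₀, hS.comm]
        rw [h3] at hκe
        have h4 : ContinuousAt (fun t => ‖κ t * ∏ D ∈ h𝒟f.toFinset,
            d D (g (i t)) ^ (m * w * cΓ D)‖) t₀ :=
          ((ContMDiffAt.continuousAt hκ).mul (hdc t₀ ht₀ _ (Finset.Subset.refl _))).norm
        refine ⟨t₀, ‖κ t₀ * ∏ D ∈ h𝒟f.toFinset, d D (g (i t₀)) ^ (m * w * cΓ D)‖ + 1, ht₀, ?_⟩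
        filter_upwards [hκe, h4.eventually_lt_const (lt_add_one _)] with t b1 b2 _
        rw [b1, mul_right_comm, norm_mul]
        exact mul_le_mul_of_nonneg_right b2.le (norm_nonneg _)
      · have hcase' : ∃ E ∈ Q₀, i (tc c₀) ∈ E := by
          by_contra hcon
          exact hcase ⟨tc c₀, htc' c₀, fun E hE h1 => hcon ⟨E, hE, h1⟩⟩
        obtain ⟨E₁, hE₁, hiE₁⟩ := hcase'
        have hDp : J.IsPrime (Cm (q + 1)) (closure (g '' E₁)) := by
          by_contra hD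
          exact P2 E₁ (Or.inl hE₁) (hor E₁ hE₁) hD _ hiE₁ (hS.fF.fibre _)
        set D := closure (g '' E₁) with hDdef
        have hDmem : D ∈ D₁ := ⟨hDp, E₁, hE₁, rfl⟩
        have hc₀D : i' c₀ ∈ D := by
          rw [← htc' c₀, hS.comm]
          exact subset_closure (mem_image_of_mem g hiE₁)
        obtain ⟨hEp, hEc, ⟨xE, hEg⟩, hEr⟩ := hε D hDp
        set E := ε D with hEdef
        have hE𝒬 : E ∈ 𝒬 := Or.inr ⟨D, hDmem, rfl⟩
        obtain ⟨t₀, ht₀, h2, h3⟩ := sel2 E D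
          ({x | x ∈ E ∧ ¬ GoodAt (q + 1) g S w Θ E D (kk D) (oo D) x} ∪
            ⋃ E' ∈ 𝒬 \ {E}, E ∩ E') hEp hDp hEc (P1 D (Or.inl hDmem)) (by
              rw [union_inter_distrib_right]
              refine (P3 E hE𝒬 D hDp hEc _ _ ⟨xE, hEg⟩).union ?_
              rw [iUnion₂_inter]
              refine (h𝒬f.subset sdiff_subset).countable.biUnion fun E' hE' => ?_
              exact P4 E hE𝒬 E' hE'.1 fun h => hE'.2 h.symm) c₀ hc₀D
        have hgood : GoodAt (q + 1) g S w Θ E D (kk D) (oo D) (i t₀) := by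
          by_contra hcon
          exact h3 (Or.inl ⟨h2, hcon⟩)
        have hkk : 0 < kk D := hgood.pos hEc
        have hgi : g (i t₀) = i' c₀ := by rw [← ht₀, hS.comm]
        obtain ⟨B, hB⟩ := locB t₀ E D (kk D) (oo D) (m * w * cΓ D) (d D) hgood
          (fun E' hE' hne hmem' => h3 (Or.inr (mem_biUnion
            (show E' ∈ 𝒬 \ {E} from ⟨Or.inl ⟨hsnc.2.1 E' hE', Or.inl hE'⟩, hne⟩) ⟨h2, hmem'⟩)))
          (by rw [hgi]; exact hd D (Or.inl hDmem)) (by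
            have hw : (w : ℝ) ≠ 0 := Nat.cast_ne_zero.2 hStd.pos.ne'
            have hkk' : (kk D : ℝ) ≠ 0 := Nat.cast_ne_zero.2 hkk.ne'
            have h5 : ((kk D * (m * w * cΓ D) : ℕ) : ℝ) =
                ((w * a * k E + m * a * oo D : ℕ) : ℝ) := by
              rw [Nat.cast_mul, hk' D, hEr]
              push_cast
              rw [hk E]
              field_simp
            exact_mod_cast h5)
        rw [hgi] at hB
        have h4 : ContinuousAt (fun t => ‖∏ D' ∈ h𝒟f.toFinset.erase D,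
            d D' (g (i t)) ^ (m * w * cΓ D')‖) t₀ :=
          (hdc t₀ ht₀ _ (Finset.erase_subset _ _)).norm
        have hγt : Tendsto γ (𝓝 t₀) (𝓝 c₀) := by
          rw [← ht₀]; exact hγ.continuous.continuousAt
        refine ⟨t₀, |B| * (‖∏ D' ∈ h𝒟f.toFinset.erase D,
            d D' (g (i t₀)) ^ (m * w * cΓ D')‖ + 1), ht₀, ?_⟩
        filter_upwards [hB, h4.eventually_lt_const (lt_add_one _),
          hγt.eventually (sel1 D hDp (P1 D (Or.inl hDmem)) c₀)] with t b1 b2 b3 b4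
        have hiE : i t ∉ E := by
          intro h5
          apply b3 b4
          rw [hS.comm, ← hEc]
          exact subset_closure (mem_image_of_mem g h5)
        have h6 := b1 hiE
        have h7 : SF t * ∏ D' ∈ h𝒟f.toFinset, d D' (g (i t)) ^ (m * w * cΓ D') =
            (SF t * d D (g (i t)) ^ (m * w * cΓ D)) * ∏ D' ∈ h𝒟f.toFinset.erase D,
              d D' (g (i t)) ^ (m * w * cΓ D') := by
          have h9 := Finset.mul_prod_erase h𝒟f.toFinset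
            (fun D' => d D' (g (i t)) ^ (m * w * cΓ D')) (h𝒟f.mem_toFinset.2 (Or.inl hDmem))
          beta_reduce at h9
          rw [← h9]
          exact (mul_assoc _ _ _).symm
        rw [h7, norm_mul]
        have h8 : ‖SF t * d D (g (i t)) ^ (m * w * cΓ D)‖ ≤
            |B| * ‖jac (Cm (q + 1)) (chartAt (Cm (q + 1)) (i' c₀)) (g (i t)) ^
              (m * (w * a))‖ :=
          h6.trans (mul_le_mul_of_nonneg_right (le_abs_self B) (norm_nonneg _))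
        calc _ ≤ |B| * ‖jac (Cm (q + 1)) (chartAt (Cm (q + 1)) (i' c₀)) (g (i t)) ^
              (m * (w * a))‖ * (‖∏ D' ∈ h𝒟f.toFinset.erase D,
                d D' (g (i t₀)) ^ (m * w * cΓ D')‖ + 1) :=
              mul_le_mul h8 b2.le (norm_nonneg _)
                (mul_nonneg (abs_nonneg _) (norm_nonneg _))
          _ = _ := by ring
    obtain ⟨t₀, B, ht₀, hB⟩ := hbd
    obtain ⟨a', h1, h2⟩ := ld desc frame hh.hol hS hg eC (Sg' := SF) (M := m * (w * a))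
      (Bd := Bd) (𝒟 := h𝒟f.toFinset) (k' := fun D => m * w * cΓ D)
      (fun t₀ ht₀ => hreg t₀ (avoid t₀ ht₀)) hconst hBdi htc' hd' ht₀ hB
    exact ⟨d, a', hd', h1, h2⟩
  choose dd aa hLD1 hLD2 hLD3 using LD
  refine ⟨fun c => if c ∈ Bd then aa c c / ∏ D ∈ h𝒟f.toFinset, dd c D (i' c) ^ (m * w * cΓ D)
    else SF (tc c) / jf eC h i' c ^ (m * (w * a)), ?_, ?_⟩
  · intro z₀
    refine ⟨h𝒟f.toFinset, fun D c => dd z₀ D (i' c), aa z₀, ?_, ?_, hLD2 z₀, ?_⟩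
    · intro D hD
      refine h𝒟f.mem_toFinset.2 (Or.inr fun h0 => hD ?_)
      have h1 := hk' D
      rw [h0, mul_zero] at h1
      exact_mod_cast h1
    · intro D hD
      exact ⟨dd z₀ D, hLD1 z₀ D hD, Eventually.of_forall fun _ => rfl⟩
    · filter_upwards [hLD3 z₀, hBdi z₀] with c a1 a2 a3
      by_cases hc : c ∈ Bd
      · have h1 : c = z₀ := by_contra fun h => a2 h hc
        subst h1
        rw [if_pos hc, div_mul_cancel₀ _ a3]
        have h2 : aa c c = aa c c * jac (Cm 1) (chartAt (Cm 1) c) c ^ (m * (w * a)) := by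
          rw [jac_self, one_pow, mul_one]
        exact h2
      · rw [if_neg hc]
        exact a1 hc
  · intro t ht
    have h1 := hconst (tc (γ t)) t (htc' _) (by rw [htc']; exact ht)
    simp only [if_neg ht]
    rw [h1, hSF]
    unfold Sg
    have e1 := hjF t
    have e2 := hjC (γ t)
    have e3 := hThne t (avoid t ht)
    field_simp

end Vale.Agent.P281.H740.TM
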