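import Vale.Agent.P281.H740.TM.SpecR3
import Vale.Agent.P281.H740.TW.Iota
import Vale.Agent.P281.H713.SA.T2
import Vale.Agent.P281.MF.SecExt

/-!
# P281, project T-M (helper740), T10: descent of the section to the curve
-/

open Set Filter Metric
open Vale.Agent.P281 Vale.Agent.P281.H713 Vale.Agent.P281.H713.TZ.S
open Vale.Agent.P281.H740 (eqF)
open scoped Manifold ContDiff Topology

set_option linter.unusedSectionVars false

noncomputable section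

namespace Vale.Agent.P281.H740.TM

theorem jac_self {n : ℕ} {X : Type} [TopologicalSpace X] [ChartedSpace (Cm n) X]
    [IsManifold 𝓘(ℂ, Cm n) ω X] (x : X) : jac (Cm n) (chartAt (Cm n) x) x = 1 := by
  have h := (H740.mfderiv_chart_self (E := Cm n) x).2
  have h1 : jac (Cm n) (chartAt (Cm n) x) x =
      (mfderiv 𝓘(ℂ, Cm n) 𝓘(ℂ, Cm n) (chartAt (Cm n) x) x : Cm n →L[ℂ] Cm n).det := rfl
  rw [h1, h]
  exact LinearMap.det_id

theorem jac_rat {n : ℕ} {X : Type} [TopologicalSpace X] [ChartedSpace (Cm n) X]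
    [IsManifold 𝓘(ℂ, Cm n) ω X] {x₀ x₁ x : X} (h0 : x ∈ (chartAt (Cm n) x₀).source)
    (h1 : x ∈ (chartAt (Cm n) x₁).source) :
    ∃ c : X → ℂ, HolV (Cm n) c x ∧ c x ≠ 0 ∧ ∀ᶠ v in 𝓝 x,
      jac (Cm n) (chartAt (Cm n) x₀) v = c v * jac (Cm n) (chartAt (Cm n) x₁) v := by
  have h2 := H713.SA.holV_fderiv (E := Cm n) (x₀ := x₁) h1
    (HolV.chart h0 : HolV (Cm n) (chartAt (Cm n) x₀ : X → Cm n) x)
  have h3 : ∀ v, v ∈ (chartAt (Cm n) x₀).source → v ∈ (chartAt (Cm n) x₁).source →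
      jac (Cm n) (chartAt (Cm n) x₀) v =
        (fderiv ℂ ((chartAt (Cm n) x₀ : X → Cm n) ∘ (chartAt (Cm n) x₁).symm)
          (chartAt (Cm n) x₁ v)).det * jac (Cm n) (chartAt (Cm n) x₁) v :=
    fun v a b => MF.jac_chart_comp a b
  refine ⟨fun v => (fderiv ℂ ((chartAt (Cm n) x₀ : X → Cm n) ∘ (chartAt (Cm n) x₁).symm)
    (chartAt (Cm n) x₁ v)).det, HolV.comp_contDiff contDiff_det.contDiffAt h2, ?_, ?_⟩
  · intro h4
    have h5 := h3 x h0 h1
    simp only [h4, zero_mul] at h5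
    exact jac_chart_ne_zero h0 h5
  · filter_upwards [(chartAt (Cm n) x₀).open_source.mem_nhds h0,
      (chartAt (Cm n) x₁).open_source.mem_nhds h1] with v a b
    exact h3 v a b

theorem eq_of_freq {X : Type} [TopologicalSpace X] {f g : X → ℂ} {z : X}
    (hf : ContinuousAt f z) (hg : ContinuousAt g z) (h : ∃ᶠ t in 𝓝 z, f t = g t) : f z = g z := by
  by_contra hcon
  have h5 : ContinuousAt (fun y => f y - g y) z := hf.sub hg
  refine h ?_
  filter_upwards [h5.eventually_ne (sub_ne_zero.2 hcon)] with y hy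
  exact sub_ne_zero.1 hy

section

variable {F C : Type} [TopologicalSpace F] [ChartedSpace (Cm 2) F]
  [IsManifold 𝓘(ℂ, Cm 2) ω F] [TopologicalSpace C] [ChartedSpace (Cm 1) C]
  [IsManifold 𝓘(ℂ, Cm 1) ω C]

/-- the coordinate of `C` at `c₀` -/
def cc (c₀ c : C) : ℂ := chartAt (Cm 1) c₀ c 0

theorem cc_hol {c₀ c : C} (h : c ∈ (chartAt (Cm 1) c₀).source) : HolV (Cm 1) (cc c₀) c :=
  HolV.eval (HolV.chart h) 0

theorem cc_inj {c₀ c c' : C} (h : c ∈ (chartAt (Cm 1) c₀).source)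
    (h' : c' ∈ (chartAt (Cm 1) c₀).source) (he : cc c₀ c = cc c₀ c') : c = c' := by
  refine (chartAt (Cm 1) c₀).injOn h h' (funext fun a => ?_)
  rw [Subsingleton.elim a 0]
  exact he

theorem cc_symm {c₀ c : C} (h : c ∈ (chartAt (Cm 1) c₀).source) :
    (chartAt (Cm 1) c₀).symm (fun _ => cc c₀ c) = c := by
  have h1 : (fun _ => cc c₀ c : Cm 1) = chartAt (Cm 1) c₀ c := by
    funext a
    rw [Subsingleton.elim a 0]
    rfl
  rw [h1, (chartAt (Cm 1) c₀).left_inv h]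

/-- **descent** of `ρ = lam ∘ γ` near `t₀` -/
theorem desc_man (hdesc : DescStmt) {γ : F → C} (hγ : ContMDiff 𝓘(ℂ, Cm 2) 𝓘(ℂ, Cm 1) ω γ)
    {t₀ : F} (hnc : ¬ ∀ᶠ t in 𝓝 t₀, γ t = γ t₀) {ρ : F → ℂ} {lam : C → ℂ} {B : ℝ}
    (hρ : ∀ᶠ t in 𝓝 t₀, γ t ≠ γ t₀ → HolV (Cm 2) ρ t ∧ ρ t = lam (γ t) ∧ ‖ρ t‖ ≤ B) :
    ∃ b : C → ℂ, HolV (Cm 1) b (γ t₀) ∧ ∀ᶠ c in 𝓝 (γ t₀), c ≠ γ t₀ → b c = lam c := by
  set c₀ := γ t₀ with hc₀
  set φ := chartAt (Cm 2) t₀ with hφ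
  have ht₀ : t₀ ∈ φ.source := mem_chart_source _ t₀
  have hc₀s : c₀ ∈ (chartAt (Cm 1) c₀).source := mem_chart_source _ c₀
  have hsymm : Tendsto φ.symm (𝓝 (φ t₀)) (𝓝 t₀) := by
    have := φ.continuousAt_symm (mem_chart_target (Cm 2) t₀)
    rw [ContinuousAt, φ.left_inv ht₀] at this
    exact this
  have htar : ∀ᶠ v in 𝓝 (φ t₀), v ∈ φ.target := φ.open_target.mem_nhds (mem_chart_target _ t₀)
  have hγs : ∀ᶠ t in 𝓝 t₀, γ t ∈ (chartAt (Cm 1) c₀).source :=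
    hγ.continuous.continuousAt.eventually ((chartAt (Cm 1) c₀).open_source.mem_nhds hc₀s)
  set G : Cm 2 → ℂ := fun v => cc c₀ (γ (φ.symm v)) with hG
  have hG0 : G (φ t₀) = cc c₀ c₀ := by simp only [hG, φ.left_inv ht₀, ← hc₀]
  have hGhol : HolV (Cm 2) (fun t => cc c₀ (γ t)) t₀ :=
    HolV.comp (E' := Cm 1) (h := cc c₀) (by rw [← hc₀]; exact cc_hol hc₀s) (hγ t₀)
  have hGnc : ¬ ∀ᶠ v in 𝓝 (φ t₀), G v = G (φ t₀) := by
    intro hcon
    apply hnc
    filter_upwards [φ.open_source.mem_nhds ht₀, hγs,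
      (φ.continuousAt ht₀).eventually hcon] with t a1 a2 a3
    rw [hG0] at a3
    simp only [hG, φ.left_inv a1] at a3
    exact cc_inj a2 hc₀s a3
  obtain ⟨lam', h1, h2⟩ := hdesc 2 G (fun v => ρ (φ.symm v))
    (fun u => lam ((chartAt (Cm 1) c₀).symm (fun _ => u))) (φ t₀) B
    (hGhol.rep ht₀).analyticAt hGnc (by
      filter_upwards [hsymm.eventually hρ, htar, hsymm.eventually hγs,
        hsymm.eventually (φ.open_source.mem_nhds ht₀)] with v a1 a2 a3 a4 a5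
      have a6 : γ (φ.symm v) ≠ c₀ := fun h => a5 (by rw [hG0]; simp only [hG, h])
      obtain ⟨b1, b2, b3⟩ := a1 a6
      refine ⟨?_, ?_, b3⟩
      · have := (b1.rep (x₀ := t₀) a4).analyticAt
        rw [← hφ, φ.right_inv a2] at this
        exact this
      · rw [b2]
        simp only [hG]
        rw [cc_symm a3])
  rw [hG0] at h1 h2
  refine ⟨fun c => lam' (cc c₀ c), HolV.comp_contDiff (G := lam') (h1.contDiffAt)
    (cc_hol hc₀s), ?_⟩
  filter_upwards [(cc_hol hc₀s).continuousAt.eventually h2,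
    (chartAt (Cm 1) c₀).open_source.mem_nhds hc₀s] with c a1 a2 a3
  rw [a1 fun h => a3 (cc_inj a2 hc₀s h), cc_symm a2]

end

end Vale.Agent.P281.H740.TM
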