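import Vale.Agent.P281.H740.TM.Restr1

/-!
# P281, project T-M (helper740), T10: the local sections of the curve
-/

open Set Filter Metric
open Vale.Agent.P281 Vale.Agent.P281.H713 Vale.Agent.P281.H713.TZ.S
open Vale.Agent.P281.H740 (eqF)
open scoped Manifold ContDiff Topology

set_option linter.unusedSectionVars false

noncomputable section

namespace Vale.Agent.P281.H740.TM

section

variable {F C : Type} [TopologicalSpace F] [ChartedSpace (Cm 2) F]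
  [IsManifold 𝓘(ℂ, Cm 2) ω F] [TopologicalSpace C] [T2Space C] [ChartedSpace (Cm 1) C]
  [IsManifold 𝓘(ℂ, Cm 1) ω C]

theorem exists_ne (c₀ : C) : ∃ c : C, c ≠ c₀ := by
  by_contra hcon
  push Not at hcon
  have h1 : (chartAt (Cm 1) c₀).target ∈ 𝓝 (chartAt (Cm 1) c₀ c₀) :=
    (chartAt (Cm 1) c₀).open_target.mem_nhds (mem_chart_target _ c₀)
  have h2 : ∀ᶠ v in 𝓝[≠] (chartAt (Cm 1) c₀ c₀), v ∈ (chartAt (Cm 1) c₀).target :=
    mem_nhdsWithin_of_mem_nhds h1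
  obtain ⟨v, hv, hne⟩ := (h2.and self_mem_nhdsWithin).exists
  apply hne
  rw [← (chartAt (Cm 1) c₀).right_inv hv, hcon ((chartAt (Cm 1) c₀).symm v)]
  rfl

theorem dense_ne [PreconnectedSpace F] {γ : F → C}
    (hγ : ContMDiff 𝓘(ℂ, Cm 2) 𝓘(ℂ, Cm 1) ω γ) (hsur : Function.Surjective γ) (c₀ : C) :
    Dense {t | γ t ≠ c₀} := by
  refine dense_of_local (E := Cm 2) ?_ ?_
  · obtain ⟨c, hc⟩ := exists_ne c₀
    obtain ⟨t, ht⟩ := hsur c
    exact ⟨t, by show γ t ≠ c₀; rw [ht]; exact hc⟩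
  · intro t
    by_cases h : γ t = c₀
    · have hs : c₀ ∈ (chartAt (Cm 1) c₀).source := mem_chart_source _ c₀
      have h1 : HolV (Cm 2) (fun t => cc c₀ (γ t)) t :=
        HolV.comp (E' := Cm 1) (h := cc c₀) (by rw [h]; exact cc_hol hs) (hγ t)
      refine ⟨fun t => cc c₀ (γ t) - cc c₀ c₀, ?_, ?_⟩
      · exact (HolV.comp_contDiff (G := fun u : ℂ => u - cc c₀ c₀) (by fun_prop) h1)
      · filter_upwards [hγ.continuous.continuousAt.eventually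
          ((chartAt (Cm 1) c₀).open_source.mem_nhds (by rw [h]; exact hs))] with z hz
        constructor
        · intro h2 h3
          exact h2 (cc_inj hz hs (sub_eq_zero.1 h3))
        · intro h2 h3
          apply h2
          rw [h3, sub_self]
    · refine ⟨fun _ => 1, HolV.const (1 : ℂ) t, ?_⟩
      filter_upwards [hγ.continuous.continuousAt.eventually_ne h] with z hz
      exact ⟨fun _ => one_ne_zero, fun _ => hz⟩

theorem not_const [PreconnectedSpace F] {γ : F → C}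
    (hγ : ContMDiff 𝓘(ℂ, Cm 2) 𝓘(ℂ, Cm 1) ω γ) (hsur : Function.Surjective γ) (t₀ : F) :
    ¬ ∀ᶠ t in 𝓝 t₀, γ t = γ t₀ := by
  intro hcon
  obtain ⟨t, h1, h2⟩ := mem_closure_iff_nhds.1 (dense_ne hγ hsur (γ t₀) t₀) _ hcon
  exact h2 h1

end

section

variable {q : ℕ} {X Z Y F C : Type} [TopologicalSpace X] [ChartedSpace (Cm (q + 1 + 1)) X]
  [IsManifold 𝓘(ℂ, Cm (q + 1 + 1)) ω X] [TopologicalSpace Z]
  [ChartedSpace (Cm (q + 1)) Z] [IsManifold 𝓘(ℂ, Cm (q + 1)) ω Z]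
  [TopologicalSpace Y] [ChartedSpace (Cm q) Y] [IsManifold 𝓘(ℂ, Cm q) ω Y]
  [TopologicalSpace F] [ChartedSpace (Cm 2) F] [IsManifold 𝓘(ℂ, Cm 2) ω F] [ConnectedSpace F]
  [TopologicalSpace C] [T2Space C] [ChartedSpace (Cm 1) C] [IsManifold 𝓘(ℂ, Cm 1) ω C]
  {g : X → Z} {h : Z → Y} {y : Y} {i : F → X} {i' : C → Z} {γ : F → C}

/-- **the local section of `C` at `c₀`**. -/
theorem ld (hdesc : DescStmt) (frame : FrameStmt)
    (hh : ContMDiff 𝓘(ℂ, Cm (q + 1)) 𝓘(ℂ, Cm q) ω h) (hS : Sit q g h y i i' γ)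
    (hg : ContMDiff 𝓘(ℂ, Cm (q + 1 + 1)) 𝓘(ℂ, Cm (q + 1)) ω g)
    (eC : Cm (q + 1) ≃L[ℂ] (Cm q × Cm 1)) {Sg' : F → ℂ} {M : ℕ} {Bd : Set C}
    {𝒟 : Finset (Set Z)} {k' : Set Z → ℕ}
    (hreg : ∀ t₀, γ t₀ ∉ Bd → ∃ κ : F → ℂ, J.HolAt (Cm 2) κ t₀ ∧ ∀ᶠ t in 𝓝 t₀,
      Sg' t = κ t * jac (Cm (q + 1)) (chartAt (Cm (q + 1)) (g (i t₀))) (g (i t)) ^ M)
    (hconst : ∀ t t', γ t = γ t' → γ t ∉ Bd → Sg' t = Sg' t')
    (hBd : ∀ c₀, ∀ᶠ c in 𝓝 c₀, c ≠ c₀ → c ∉ Bd) {tc : C → F} (htc : ∀ c, γ (tc c) = c)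
    {c₀ : C} {d : Set Z → Z → ℂ} (hd : ∀ D ∈ 𝒟, J.IsLocalEq (Cm (q + 1)) D (d D) (i' c₀))
    {t₀ : F} (ht₀ : γ t₀ = c₀) {B : ℝ} (hB : ∀ᶠ t in 𝓝 t₀, γ t ≠ c₀ →
      ‖Sg' t * ∏ D ∈ 𝒟, d D (g (i t)) ^ k' D‖ ≤
        B * ‖jac (Cm (q + 1)) (chartAt (Cm (q + 1)) (i' c₀)) (g (i t)) ^ M‖) :
    ∃ a' : C → ℂ, J.HolAt (Cm 1) a' c₀ ∧ ∀ᶠ c in 𝓝 c₀, c ∉ Bd →
      Sg' (tc c) / jf eC h i' c ^ M * ∏ D ∈ 𝒟, d D (i' c) ^ k' D =
        a' c * jac (Cm 1) (chartAt (Cm 1) c₀) c ^ M := by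
  have hγ := hS.hol
  have hsur : Function.Surjective γ := fun c => ⟨tc c, htc c⟩
  have hzs : i' c₀ ∈ (chartAt (Cm (q + 1)) (i' c₀)).source := mem_chart_source _ _
  have hgi : Continuous fun t => g (i t) := hg.continuous.comp hS.fF.hol.continuous
  have hgt₀ : g (i t₀) = i' c₀ := by rw [← ht₀, hS.comm]
  have hgt : Tendsto (fun t => g (i t)) (𝓝 t₀) (𝓝 (i' c₀)) := by
    rw [← hgt₀]; exact hgi.continuousAt
  have hγt : Tendsto γ (𝓝 t₀) (𝓝 c₀) := by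
    rw [← ht₀]; exact hγ.continuous.continuousAt
  have hZev : ∀ᶠ t in 𝓝 t₀, g (i t) ∈ (chartAt (Cm (q + 1)) (i' c₀)).source :=
    hgt.eventually ((chartAt (Cm (q + 1)) (i' c₀)).open_source.mem_nhds hzs)
  -- the function on the surface
  set ρ : F → ℂ := fun t => Sg' t * (∏ D ∈ 𝒟, d D (g (i t)) ^ k' D) /
    jac (Cm (q + 1)) (chartAt (Cm (q + 1)) (i' c₀)) (g (i t)) ^ M with hρ
  set lam : C → ℂ := fun c => Sg' (tc c) * (∏ D ∈ 𝒟, d D (i' c) ^ k' D) /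
    jac (Cm (q + 1)) (chartAt (Cm (q + 1)) (i' c₀)) (i' c) ^ M with hlam
  have hdhol : ∀ᶠ z in 𝓝 (i' c₀), ∀ D ∈ 𝒟, J.HolAt (Cm (q + 1)) (d D) z := by
    rw [eventually_all_finset]
    intro D hD
    obtain ⟨V, hV, hx, h1, -, -⟩ := hd D hD
    filter_upwards [hV.mem_nhds hx] with z hz
    exact h1 z hz
  have hgih : ∀ t, HolM (Cm 2) (Cm (q + 1)) (fun t => g (i t)) t := fun t =>
    ContMDiffAt.comp t (g := g) (f := i) (hg (i t)) (hS.fF.hol t)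
  -- local holomorphy at the regular points
  have hhol : ∀ᶠ t in 𝓝 t₀, γ t ∉ Bd → HolV (Cm 2) ρ t := by
    filter_upwards [hZev, hgt.eventually hdhol] with t a1 a2 a3
    obtain ⟨κ, hκ, hκe⟩ := hreg t a3
    obtain ⟨c, hc, hc0, hce⟩ := jac_rat (mem_chart_source (Cm (q + 1)) (g (i t))) a1
    have hcg : HolV (Cm 2) (fun t => c (g (i t))) t := HolV.comp (E' := Cm (q + 1)) hc (hgih t)
    have hP : HolV (Cm 2) (fun t => ∏ D ∈ 𝒟, d D (g (i t)) ^ k' D) t :=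
      HolV.prod fun D hD => HolV.pow (HolV.comp (E' := Cm (q + 1)) (h := d D)
        (f := fun t => g (i t)) (a2 D hD) (hgih t)) _
    refine HolV.congr (h := fun t => κ t * c (g (i t)) ^ M * ∏ D ∈ 𝒟, d D (g (i t)) ^ k' D)
      ((HolV.mul hκ (hcg.pow M)).mul hP) ?_
    filter_upwards [hκe, hgi.continuousAt.eventually hce, hgi.continuousAt.eventually
      ((chartAt (Cm (q + 1)) (i' c₀)).open_source.mem_nhds a1)] with s b1 b2 b3
    have hj : jac (Cm (q + 1)) (chartAt (Cm (q + 1)) (i' c₀)) (g (i s)) ≠ 0 :=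
      jac_chart_ne_zero b3
    simp only [hρ]
    rw [b1, b2, mul_pow]
    field_simp
  have hval : ∀ t, γ t ∉ Bd → ρ t = lam (γ t) := by
    intro t ht
    simp only [hρ, hlam]
    rw [hS.comm, hconst (tc (γ t)) t (htc _) (by rw [htc]; exact ht)]
  obtain ⟨b, hb, hbe⟩ := desc_man (B := B) hdesc hγ (not_const hγ hsur t₀) (ρ := ρ) (lam := lam) (by
    rw [ht₀]
    filter_upwards [hhol, hγt.eventually (hBd c₀), hB, hZev] with t a1 a2 a3 a4 a5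
    have hj : jac (Cm (q + 1)) (chartAt (Cm (q + 1)) (i' c₀)) (g (i t)) ≠ 0 :=
      jac_chart_ne_zero a4
    refine ⟨a1 (a2 a5), hval t (a2 a5), ?_⟩
    simp only [hρ]
    rw [norm_div, div_le_iff₀ (norm_pos_iff.2 (pow_ne_zero _ hj))]
    exact a3 a5)
  rw [ht₀] at hb hbe
  -- the value at `c₀`, if `c₀` is regular
  have hb0 : c₀ ∉ Bd → b c₀ = lam c₀ := by
    intro h0
    have h1 : HolV (Cm 2) ρ t₀ := hhol.self_of_nhds (by rw [ht₀]; exact h0)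
    have h2 : ContinuousAt (fun t => b (γ t)) t₀ :=
      ContinuousAt.comp (g := b) (by rw [ht₀]; exact hb.continuousAt) hγ.continuous.continuousAt
    have h3 := eq_of_freq h2 h1.continuousAt (((mem_closure_iff_frequently.1
      (dense_ne hγ hsur c₀ t₀)).and_eventually ((hγt.eventually hbe).and
        (hγt.eventually (hBd c₀)))).mono fun t ht => by
        rw [ht.2.1 ht.1, hval t (ht.2.2 ht.1)])
    simp only [ht₀] at h3
    rw [h3, hval t₀ (by rw [ht₀]; exact h0), ht₀]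
  obtain ⟨j, hj, hj0, hje⟩ := frame (q + 1) q 1 Z Y C eC h i' y hh hS.fC.hol hS.fC.fibre
    (fun c => hS.sub' _ (hS.fC.fibre c)) hS.fC.immersion c₀
  refine ⟨fun c => b c / j c ^ M, HolV.div hb (HolV.pow hj M) (pow_ne_zero _ hj0), ?_⟩
  filter_upwards [hbe, hje, HolV.continuousAt hj |>.eventually_ne hj0,
    (chartAt (Cm 1) c₀).open_source.mem_nhds (mem_chart_source (Cm 1) c₀),
    hS.fC.hol.continuous.continuousAt.eventually
      ((chartAt (Cm (q + 1)) (i' c₀)).open_source.mem_nhds hzs)] with c a1 a2 a3 a4 a5 a6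
  have hjz : jac (Cm (q + 1)) (chartAt (Cm (q + 1)) (i' c₀)) (i' c) ≠ 0 := jac_chart_ne_zero a5
  have hjc : jac (Cm 1) (chartAt (Cm 1) c₀) c ≠ 0 := jac_chart_ne_zero a4
  have h1 : b c = lam c := by
    by_cases h : c = c₀
    · rw [h]; exact hb0 (by rw [← h]; exact a6)
    · exact a1 h
  have hjf : jf eC h i' c ≠ 0 := by
    intro h0
    rw [h0, zero_mul] at a2
    exact mul_ne_zero a3 hjz a2.symm
  rw [h1]
  simp only [hlam]
  have h2 : (jf eC h i' c * jac (Cm 1) (chartAt (Cm 1) c₀) c) ^ M =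
      (j c * jac (Cm (q + 1)) (chartAt (Cm (q + 1)) (i' c₀)) (i' c)) ^ M := by rw [a2]
  rw [mul_pow, mul_pow] at h2
  field_simp
  linear_combination (Sg' (tc c) * ∏ D ∈ 𝒟, d D (i' c) ^ k' D) * (-h2)

end

end Vale.Agent.P281.H740.TM
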