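import Vale.Agent.P281.H740.TM.Restr
import Vale.Agent.P281.H511.TM.Sit
import Vale.Agent.P281.H727.TM.Const
import Vale.Agent.P281.H406.TM.R45
import Vale.Agent.P281.H22.TM.Pos
import Vale.Agent.P281.H624.TM.ZerF
import Vale.Agent.P281.H89.TM.Th
import Vale.Agent.P281.H624.TM.Kod
import Vale.Agent.P281.H118.TM.Sel
import Vale.Agent.P281.H452.TM.Loc
import Vale.Agent.P281.H747.TM.Frame
import Vale.Agent.P281.H364.TM.OrdT
import Vale.Agent.P281.H834.TM.Gen
import Vale.Agent.P281.H399.TM.Ball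

/-!
# P281, project T-M (helper740), T10: the restriction theorem
-/

namespace Vale.Agent.P281.H740.TM

theorem restr (exc : ExcStmt) : RestrStmt :=
  restr_of (H511.TM.sit_of (H364.crit H150.Gen.img)) H727.TM.const H406.TM.descStmt
    (H22.TM.pos exc H364.TM.ord H834.TM.gen H399.TM.ball) H624.TM.zerStmt H89.TM.thStmt
    H624.TM.kodStmt (H118.TM.sel H406.TM.uncStmt) (H452.TM.loc H747.TM.frameStmt)
    H747.TM.frameStmt H364.TM.coef

end Vale.Agent.P281.H740.TM
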