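import Vale.Agent.P281.H740.TM.Spec

/-!
# P281, project T-M (helper740): sub-blocks of T10 (`RestrStmt`)
-/

open Set Filter Metric MeasureTheory
open Vale.Agent.P281 Vale.Agent.P281.H713 Vale.Agent.P281.H713.TZ.S
open Vale.Agent.P281.H64.Thin (IsThinSet)
open Vale.Agent.P281.H64.Gen (IsSmallSet IsAnalyticSet)
open scoped Manifold ContDiff Topology

noncomputable section

namespace Vale.Agent.P281.H740.TM

section
variable {n q d : ℕ} {X Y F : Type} [TopologicalSpace X] [ChartedSpace (Cm n) X]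
  [TopologicalSpace Y] [ChartedSpace (Cm q) Y] [TopologicalSpace F] [ChartedSpace (Cm d) F]

/-- `det (df, P)` at `i t`, in the preferred charts, `P` a left inverse of `di`. -/
def jf (e : Cm n ≃L[ℂ] (Cm q × Cm d)) (f : X → Y) (i : F → X) (t : F) : ℂ :=
  MF.JP e (dM (Cm n) (Cm q) f (i t)) (Classical.epsilon fun P : Cm n →L[ℂ] Cm d =>
    P.comp (mfderiv 𝓘(ℂ, Cm d) 𝓘(ℂ, Cm n) i t : Cm d →L[ℂ] Cm n) = ContinuousLinearMap.id ℂ _)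

end

/-- **R1** (frames): `jf` is a holomorphic function without zeros, up to the jacobians of the charts
(`MF.JP_left`, `JP_comp`, `JP_indep`). -/
def FrameStmt : Prop :=
  ∀ (n q d : ℕ) (X Y F : Type) [TopologicalSpace X] [ChartedSpace (Cm n) X]
    [IsManifold 𝓘(ℂ, Cm n) ω X] [TopologicalSpace Y] [ChartedSpace (Cm q) Y]
    [IsManifold 𝓘(ℂ, Cm q) ω Y] [TopologicalSpace F] [ChartedSpace (Cm d) F]
    [IsManifold 𝓘(ℂ, Cm d) ω F] (e : Cm n ≃L[ℂ] (Cm q × Cm d)) (f : X → Y) (i : F → X) (y : Y),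
    ContMDiff 𝓘(ℂ, Cm n) 𝓘(ℂ, Cm q) ω f → ContMDiff 𝓘(ℂ, Cm d) 𝓘(ℂ, Cm n) ω i →
    (∀ t, f (i t) = y) → (∀ t, Function.Surjective (mfderiv 𝓘(ℂ, Cm n) 𝓘(ℂ, Cm q) f (i t))) →
    (∀ t, Function.Injective (mfderiv 𝓘(ℂ, Cm d) 𝓘(ℂ, Cm n) i t)) →
    ∀ t₀, ∃ j : F → ℂ, J.HolAt (Cm d) j t₀ ∧ j t₀ ≠ 0 ∧ ∀ᶠ t in 𝓝 t₀,
      jf e f i t * jac (Cm d) (chartAt (Cm d) t₀) t = j t * jac (Cm n) (chartAt (Cm n) (i t₀)) (i t)

/-- The situation over a very general point `y`: `F = (h ∘ g)⁻¹(y)`, `C = h⁻¹(y)`, `γ = g|F : F → C`. -/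
structure Sit (q : ℕ) {X Z Y F C : Type} [TopologicalSpace X] [ChartedSpace (Cm (q + 1 + 1)) X]
    [TopologicalSpace Z] [ChartedSpace (Cm (q + 1)) Z] [TopologicalSpace Y] [ChartedSpace (Cm q) Y]
    [TopologicalSpace F] [ChartedSpace (Cm 2) F] [TopologicalSpace C] [ChartedSpace (Cm 1) C]
    (g : X → Z) (h : Z → Y) (y : Y) (i : F → X) (i' : C → Z) (γ : F → C) : Prop where
  fF : H511.Surf.IsFibre (Cm (q + 1 + 1)) (Cm 2) (fun x => h (g x)) y i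
  fC : H511.Surf.IsFibre (Cm (q + 1)) (Cm 1) h y i'
  inj : Function.Injective i
  inj' : Function.Injective i'
  sub : ∀ x, h (g x) = y → Function.Surjective
    (mfderiv 𝓘(ℂ, Cm (q + 1 + 1)) 𝓘(ℂ, Cm q) (fun x => h (g x)) x)
  sub' : ∀ z, h z = y → Function.Surjective (mfderiv 𝓘(ℂ, Cm (q + 1)) 𝓘(ℂ, Cm q) h z)
  onto : ∀ x, h (g x) = y → ∃ t, i t = x
  onto' : ∀ z, h z = y → ∃ c, i' c = z
  hol : ContMDiff 𝓘(ℂ, Cm 2) 𝓘(ℂ, Cm 1) ω γ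
  comm : ∀ t, i' (γ t) = g (i t)
  conn : ∀ c, IsConnected (γ ⁻¹' {c})

/-- **R2**: for very general `y` (`CritStmt` for `h ∘ g` and `h`; `onto` as in `H740/TW/Easy` (the
image of `i` is open and closed in the connected fibre); `γ` by the local retractions of `Iota`). -/
def SitStmt : Prop :=
  ∀ (q : ℕ) (X Z Y : Type) [TopologicalSpace X] [ChartedSpace (Cm (q + 1 + 1)) X]
    [TopologicalSpace Z] [ChartedSpace (Cm (q + 1)) Z] [TopologicalSpace Y] [ChartedSpace (Cm q) Y]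
    (g : X → Z) (h : Z → Y) (Δ : Set X → ℝ), H511.Surf.IsFibration (Cm (q + 1 + 1)) (Cm (q + 1)) g Δ →
    H511.Surf.IsFibration (Cm (q + 1)) (Cm q) h (fun _ => 0) →
    ∃ H : ℕ → Set Y, (∀ k, IsThinSet (Cm q) (H k)) ∧ ∀ y, (∀ k, y ∉ H k) →
      ∀ (F : Type) [TopologicalSpace F] [T2Space F] [ChartedSpace (Cm 2) F] (i : F → X)
        (C : Type) [TopologicalSpace C] [T2Space C] [ChartedSpace (Cm 1) C] (i' : C → Z),
        H511.Surf.IsFibre (Cm (q + 1 + 1)) (Cm 2) (fun x => h (g x)) y i → Function.Injective i →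
        H511.Surf.IsFibre (Cm (q + 1)) (Cm 1) h y i' → Function.Injective i' →
        ∃ γ : F → C, Sit q g h y i i' γ

/-- **R3** (constancy on the fibres): `ρ` is, near the fibre of `γ` over `c₀ ∈ O`, a holomorphic function
times a function `ω(γ t)` (which may be discontinuous). Then `ρ` is constant on the fibres over `O`
(`CritStmt` for `γ`: off `S'` the fibre is a compact connected manifold (`exists_level`), maximum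
principle; then continuity: `γ` is open, `S'` has no interior). -/
def ConstStmt : Prop :=
  ∀ (F C : Type) [TopologicalSpace F] [T2Space F] [CompactSpace F] [ConnectedSpace F]
    [ChartedSpace (Cm 2) F] [IsManifold 𝓘(ℂ, Cm 2) ω F] [TopologicalSpace C] [T2Space C]
    [ChartedSpace (Cm 1) C] [IsManifold 𝓘(ℂ, Cm 1) ω C] (γ : F → C) (O : Set C) (ρ : F → ℂ),
    ContMDiff 𝓘(ℂ, Cm 2) 𝓘(ℂ, Cm 1) ω γ → (∀ c, IsConnected (γ ⁻¹' {c})) → IsOpen O →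
    (∀ c₀ ∈ O, ∃ ω₀ : C → ℂ, (∀ᶠ c in 𝓝 c₀, ω₀ c ≠ 0) ∧ ∀ t₀, γ t₀ = c₀ →
      ∃ κ : F → ℂ, J.HolAt (Cm 2) κ t₀ ∧ ∀ᶠ t in 𝓝 t₀, ρ t = κ t * ω₀ (γ t)) →
    ∀ t t', γ t = γ t' → γ t ∈ O → ρ t = ρ t'

/-- **R4** (descent, pure analysis): restrict to a line `v₀ + s ξ` on which `γ` is not constant; off
`s = 0` it is a local isomorphism; Riemann's theorem. -/
def DescStmt : Prop :=
  ∀ (d : ℕ) (γ ρ : Cm d → ℂ) (lam : ℂ → ℂ) (v₀ : Cm d) (B : ℝ), AnalyticAt ℂ γ v₀ →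
    (¬ ∀ᶠ v in 𝓝 v₀, γ v = γ v₀) →
    (∀ᶠ v in 𝓝 v₀, γ v ≠ γ v₀ → AnalyticAt ℂ ρ v ∧ ρ v = lam (γ v) ∧ ‖ρ v‖ ≤ B) →
    ∃ lam' : ℂ → ℂ, AnalyticAt ℂ lam' (γ v₀) ∧ ∀ᶠ c in 𝓝 (γ v₀), c ≠ γ v₀ → lam' c = lam c

/-- **R5** (zero sets are uncountable; minimum modulus on the slices). -/
def UncStmt : Prop :=
  ∀ (e : Cm 2 → ℂ) (v₀ : Cm 2), AnalyticAt ℂ e v₀ → e v₀ = 0 → ∀ N ∈ 𝓝 v₀,
    ¬ (N ∩ {v | e v = 0}).Countable

/-- **R6** (very general position; from T0, T3, T4, T4b and `H511.Gen.subset_closure_diff`). -/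
def PosStmt : Prop :=
  ∀ (q : ℕ) (X Z Y : Type) [TopologicalSpace X] [ChartedSpace (Cm (q + 1 + 1)) X]
    [IsManifold 𝓘(ℂ, Cm (q + 1 + 1)) ω X] [TopologicalSpace Z] [ChartedSpace (Cm (q + 1)) Z]
    [IsManifold 𝓘(ℂ, Cm (q + 1)) ω Z] [TopologicalSpace Y] [ChartedSpace (Cm q) Y]
    (g : X → Z) (h : Z → Y) (Δ : Set X → ℝ) (S : Set Z)
    (e₀ : Cm (q + 1 + 1) ≃L[ℂ] (Cm (q + 1) × ℂ)) (w : ℕ) (Θ : X → ℂ), Std (q + 1) g Δ S e₀ w Θ →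
    H511.Surf.IsFibration (Cm (q + 1)) (Cm q) h (fun _ => 0) →
    ∀ (𝒬 : Set (Set X)) (𝒟 : Set (Set Z)), 𝒬.Finite → 𝒟.Finite →
    (∀ E ∈ 𝒬, J.IsPrime (Cm (q + 1 + 1)) E) → (∀ D ∈ 𝒟, J.IsPrime (Cm (q + 1)) D) →
    ∃ H : ℕ → Set Y, (∀ k, IsThinSet (Cm q) (H k)) ∧ ∀ y, (∀ k, y ∉ H k) →
      (∀ D ∈ 𝒟, (D ∩ h ⁻¹' {y}).Countable) ∧
      (∀ E ∈ 𝒬, closure (g '' E) ≠ univ → ¬ J.IsPrime (Cm (q + 1)) (closure (g '' E)) →
        ∀ x ∈ E, h (g x) ≠ y) ∧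
      (∀ E ∈ 𝒬, ∀ D, J.IsPrime (Cm (q + 1)) D → closure (g '' E) = D → ∀ k o,
        (∃ x, GoodAt (q + 1) g S w Θ E D k o x) →
        ({x | x ∈ E ∧ ¬ GoodAt (q + 1) g S w Θ E D k o x} ∩ (fun x => h (g x)) ⁻¹' {y}).Countable) ∧
      ∀ E ∈ 𝒬, ∀ E' ∈ 𝒬, E ≠ E' → (E ∩ E' ∩ (fun x => h (g x)) ⁻¹' {y}).Countable

end Vale.Agent.P281.H740.TM
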