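import Vale.Agent.P281.H740.TM.SpecR2
import Vale.Agent.P281.H740.TW.Open

/-!
# P281, project T-M (helper740): the last sub-blocks of T10 (`RestrStmt`)
-/

open Set Filter Metric MeasureTheory
open Vale.Agent.P281 Vale.Agent.P281.H713 Vale.Agent.P281.H713.TZ.S
open Vale.Agent.P281.H64.Thin (IsThinSet)
open Vale.Agent.P281.H64.Gen (IsSmallSet IsAnalyticSet)
open Vale.Agent.P281.H740 (eqF)
open scoped Manifold ContDiff Topology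

noncomputable section

namespace Vale.Agent.P281.H740.TM

/-- **R9** (transfer of sections gives the inequality of Kodaira dimensions; `kod_open`,
`section_loc` of `H740/TW/Open`). At a general point `t₁` (`γ t₁ ∉ B`, all `s_(b+1) ≠ 0` for `b < j`,
quotients submersive), `(τ_(b+1) / τ_0) ∘ γ = (s_(b+1) / s_0)^N`. -/
def KodStmt : Prop :=
  ∀ (n p : ℕ) (X Z F C : Type) [TopologicalSpace X] [ChartedSpace (Cm n) X]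
    [IsManifold 𝓘(ℂ, Cm n) ω X] [TopologicalSpace Z] [ChartedSpace (Cm p) Z]
    [IsManifold 𝓘(ℂ, Cm p) ω Z] [TopologicalSpace F] [T2Space F] [ChartedSpace (Cm 2) F]
    [IsManifold 𝓘(ℂ, Cm 2) ω F] [TopologicalSpace C] [T2Space C] [ChartedSpace (Cm 1) C]
    [IsManifold 𝓘(ℂ, Cm 1) ω C] (i : F → X) (i' : C → Z) (γ : F → C) (Δ : Set X → ℝ)
    (Γ : Set Z → ℝ) (N : ℕ) (B : Set C), ContMDiff 𝓘(ℂ, Cm 2) 𝓘(ℂ, Cm n) ω i →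
    ContMDiff 𝓘(ℂ, Cm 1) 𝓘(ℂ, Cm p) ω i' → ContMDiff 𝓘(ℂ, Cm 2) 𝓘(ℂ, Cm 1) ω γ →
    {D | Δ D ≠ 0}.Finite → (∀ D, Δ D ≠ 0 → J.IsPrime (Cm n) D) →
    {D | Γ D ≠ 0}.Finite → (∀ D, Γ D ≠ 0 → J.IsPrime (Cm p) D) → 0 < N → IsClosed B →
    Dense (γ ⁻¹' B)ᶜ → (∀ D, Γ D ≠ 0 → ∀ c, c ∉ B → i' c ∉ D) →
    (∀ (m : ℕ) (k : Set X → ℕ), 0 < m → (∀ D, (k D : ℝ) = m * Δ D) →
      ∃ (k' : Set Z → ℕ) (θ : F → ℂ), (∀ D, (k' D : ℝ) = ((m * N : ℕ) : ℝ) * Γ D) ∧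
        (∀ t, γ t ∉ B → θ t ≠ 0) ∧ ∀ s : F → ℂ, J.IsSection (Cm 2) (eqF n i) m k s →
        ∃ τ : C → ℂ, J.IsSection (Cm 1) (eqF p i') (m * N) k' τ ∧
          ∀ t, γ t ∉ B → s t ^ N = τ (γ t) * θ t) →
    kodR (Cm n) (Cm 2) i Δ ≤ kodR (Cm p) (Cm 1) i' Γ

/-- **R10** (selection of the good point). (a) `C ∩ D` is discrete (the zeros of `d ∘ i'`, which is not
locally `0`). (b) `E ∩ F` is uncountable near a point over `c₀` (`UncStmt`), and lies over `c₀` by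
(a). -/
def SelStmt : Prop :=
  ∀ (q : ℕ) (X Z Y F C : Type) [TopologicalSpace X] [CompactSpace X] [ChartedSpace (Cm (q + 1 + 1)) X]
    [IsManifold 𝓘(ℂ, Cm (q + 1 + 1)) ω X] [TopologicalSpace Z] [T2Space Z]
    [ChartedSpace (Cm (q + 1)) Z] [IsManifold 𝓘(ℂ, Cm (q + 1)) ω Z] [TopologicalSpace Y] [T2Space Y]
    [ChartedSpace (Cm q) Y] [IsManifold 𝓘(ℂ, Cm q) ω Y] [TopologicalSpace F] [T2Space F]
    [ChartedSpace (Cm 2) F] [TopologicalSpace C] [T2Space C] [ChartedSpace (Cm 1) C] (g : X → Z)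
    (h : Z → Y) (y : Y) (i : F → X) (i' : C → Z) (γ : F → C),
    ContMDiff 𝓘(ℂ, Cm (q + 1 + 1)) 𝓘(ℂ, Cm (q + 1)) ω g → Sit q g h y i i' γ →
    (∀ D, J.IsPrime (Cm (q + 1)) D → (D ∩ h ⁻¹' {y}).Countable →
      ∀ c₀, ∀ᶠ c in 𝓝 c₀, c ≠ c₀ → i' c ∉ D) ∧
    ∀ (E : Set X) (D : Set Z) (Bad : Set X), J.IsPrime (Cm (q + 1 + 1)) E →
      J.IsPrime (Cm (q + 1)) D → closure (g '' E) = D → (D ∩ h ⁻¹' {y}).Countable →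
      (Bad ∩ (fun x => h (g x)) ⁻¹' {y}).Countable → ∀ c₀, i' c₀ ∈ D →
      ∃ t₀, γ t₀ = c₀ ∧ i t₀ ∈ E ∧ i t₀ ∉ Bad

/-- `Σ = s^N jF^(mN) / Th^(ma)`, `N = w a`. -/
def Sg {q : ℕ} {X Y F : Type} [TopologicalSpace X] [ChartedSpace (Cm (q + 1 + 1)) X]
    [TopologicalSpace Y] [ChartedSpace (Cm q) Y] [TopologicalSpace F] [ChartedSpace (Cm 2) F]
    (eF : Cm (q + 1 + 1) ≃L[ℂ] (Cm q × Cm 2)) (f : X → Y) (i : F → X) (w a m : ℕ) (Th : X → ℂ)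
    (s : F → ℂ) (t : F) : ℂ :=
  s t ^ (w * a) * jf eF f i t ^ (m * (w * a)) / Th (i t) ^ (m * a)

/-- **R11** (local forms of `Σ`; from `FrameStmt` and the definitions). With `x₀ = i t₀`, `z₀ = g x₀`,
`H` the coefficient at `x₀`: `Σ (∏ e_D(i t)^(k D))^N H(i t)^(ma) = a(t)^N j(t)^(mN) jac_Z(g (i t))^(mN)`. -/
def LocStmt : Prop :=
  ∀ (q : ℕ) (X Z Y F : Type) [TopologicalSpace X] [ChartedSpace (Cm (q + 1 + 1)) X]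
    [IsManifold 𝓘(ℂ, Cm (q + 1 + 1)) ω X] [TopologicalSpace Z]
    [ChartedSpace (Cm (q + 1)) Z] [IsManifold 𝓘(ℂ, Cm (q + 1)) ω Z] [TopologicalSpace Y]
    [ChartedSpace (Cm q) Y] [IsManifold 𝓘(ℂ, Cm q) ω Y] [TopologicalSpace F]
    [ChartedSpace (Cm 2) F] [IsManifold 𝓘(ℂ, Cm 2) ω F] (g : X → Z) (h : Z → Y) (y : Y)
    (i : F → X) (S : Set Z) (w a m : ℕ) (Θ Th : X → ℂ) (Δ : Set X → ℝ) (k : Set X → ℕ) (s : F → ℂ)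
    (eF : Cm (q + 1 + 1) ≃L[ℂ] (Cm q × Cm 2)),
    ContMDiff 𝓘(ℂ, Cm (q + 1 + 1)) 𝓘(ℂ, Cm (q + 1)) ω g →
    ContMDiff 𝓘(ℂ, Cm (q + 1)) 𝓘(ℂ, Cm q) ω h →
    ContMDiff 𝓘(ℂ, Cm 2) 𝓘(ℂ, Cm (q + 1 + 1)) ω i → (∀ t, h (g (i t)) = y) →
    (∀ t, Function.Injective (mfderiv 𝓘(ℂ, Cm 2) 𝓘(ℂ, Cm (q + 1 + 1)) i t)) →
    (∀ t, Function.Surjective
      (mfderiv 𝓘(ℂ, Cm (q + 1 + 1)) 𝓘(ℂ, Cm q) (fun x => h (g x)) (i t))) →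
    (∀ x H, IsCoef (q + 1) g S w Θ x H → ∀ᶠ z in 𝓝 x,
      jac (Cm (q + 1)) (chartAt (Cm (q + 1)) (g x)) (g z) ^ w * Th z =
        H z * jac (Cm (q + 1 + 1)) (chartAt (Cm (q + 1 + 1)) x) z ^ w) →
    {D | Δ D ≠ 0}.Finite → (∀ D, Δ D ≠ 0 → J.IsPrime (Cm (q + 1 + 1)) D) →
    (∀ D, (k D : ℝ) = m * Δ D) → J.IsSection (Cm 2) (eqF (q + 1 + 1) i) m k s →
    (∀ (t₀ : F) (H : X → ℂ), IsCoef (q + 1) g S w Θ (i t₀) H → H (i t₀) ≠ 0 →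
      (∀ D, Δ D ≠ 0 → i t₀ ∉ D) → ∃ κ : F → ℂ, J.HolAt (Cm 2) κ t₀ ∧ ∀ᶠ t in 𝓝 t₀,
        Sg eF (fun x => h (g x)) i w a m Th s t =
          κ t * jac (Cm (q + 1)) (chartAt (Cm (q + 1)) (g (i t₀))) (g (i t)) ^ (m * (w * a))) ∧
    ∀ (t₀ : F) (E : Set X) (D : Set Z) (k₁ o₁ K : ℕ) (d : Z → ℂ),
      GoodAt (q + 1) g S w Θ E D k₁ o₁ (i t₀) → (∀ E', Δ E' ≠ 0 → E' ≠ E → i t₀ ∉ E') →
      J.IsLocalEq (Cm (q + 1)) D d (g (i t₀)) → k₁ * K = w * a * k E + m * a * o₁ →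
      ∃ B : ℝ, ∀ᶠ t in 𝓝 t₀, i t ∉ E →
        ‖Sg eF (fun x => h (g x)) i w a m Th s t * d (g (i t)) ^ K‖ ≤
          B * ‖jac (Cm (q + 1)) (chartAt (Cm (q + 1)) (g (i t₀))) (g (i t)) ^ (m * (w * a))‖

end Vale.Agent.P281.H740.TM
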